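import Mathlib
import Vale.Agent.P177.Bd4.B13

/-!
Lengths of localizations at primes: complements.
-/

namespace Vale.Agent.P177.H391

open Function Vale.Agent.P177

universe u

section locLen

variable {R : Type u} [CommRing R] (P : Ideal R) [P.IsPrime]

theorem locLen_subsingleton (M : Type u) [AddCommGroup M] [Module R M] [Subsingleton M] :
    locLen P M = 0 :=
  locLen_eq_zero P M 1 (fun h => Ideal.IsPrime.ne_top ‹_› ((Ideal.eq_top_iff_one _).2 h))
    (fun _ => Subsingleton.elim _ _)

theorem le_of_locLen_ne_zero {M : Type u} [AddCommGroup M] [Module R M]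
    (h : locLen P M ≠ 0) : Module.annihilator R M ≤ P := by
  by_contra hne
  obtain ⟨a, ha, haP⟩ := SetLike.not_le_iff_exists.1 hne
  exact h (locLen_eq_zero P M a haP fun x => Module.mem_annihilator.1 ha x)

end locLen

end Vale.Agent.P177.H391
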