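import Mathlib
import Vale.Agent.P177.Bd4.B16
import Vale.Agent.P177.Bd4.B17
import Vale.Agent.P177.Bd4.B15

/-!
Serre's vanishing theorem for intersection multiplicities, deduced from nonnegativity.
-/

namespace Vale.Agent.P177.H391

open CategoryTheory TensorProduct Function IsLocalRing Vale.Agent.P177

universe u

section loc

variable {R : Type u} [CommRing R] [IsLocalRing R] [IsNoetherianRing R]

/-- The radical condition gives finite length. -/
theorem length_tensor_of_radical (M N : Type u) [AddCommGroup M] [Module R M]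
    [AddCommGroup N] [Module R N] [Module.Finite R M] [Module.Finite R N]
    (h : maximalIdeal R ≤ (Module.annihilator R M ⊔ Module.annihilator R N).radical) :
    Module.length R (M ⊗[R] N) ≠ ⊤ := by
  obtain ⟨k, hk⟩ := Ideal.exists_pow_le_of_le_radical_of_fg h (IsNoetherian.noetherian _)
  rw [Module.length_ne_top_iff]
  refine isFiniteLength_of_pow_smul_eq_zero k ?_
  intro a ha x
  obtain ⟨b, hb, c, hc, rfl⟩ := Submodule.mem_sup.1 (hk ha)
  rw [add_smul, tensor_smul_eq_zero_left b (fun m => Module.mem_annihilator.1 hb m) x,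
    zero_add]
  apply (TensorProduct.comm R M N).injective
  rw [map_smul, map_zero]
  exact tensor_smul_eq_zero_left c (fun m => Module.mem_annihilator.1 hc m) _

/-- Parameters of `N` inside an ideal `P` such that `P + Ann N` contains a power of the maximal
ideal. -/
theorem exists_params_in (P : Ideal R) (N : Type u) [AddCommGroup N] [Module R N]
    [Module.Finite R N] (n : ℕ) (hn : Module.supportDim R N = n) (k : ℕ)
    (hk : maximalIdeal R ^ k ≤ P ⊔ Module.annihilator R N) :
    ∃ ys : List R, ys.length = n ∧ (∀ y ∈ ys, y ∈ P) ∧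
      maximalIdeal R ≤ (Module.annihilator R N ⊔ Ideal.ofList ys).radical := by
  obtain ⟨xs, hxl, hxm, hx⟩ := SL.exists_sop N n hn
  have h1 : ∀ x ∈ xs, ∃ y ∈ P, x ^ k - y ∈ Module.annihilator R N := by
    intro x hx
    obtain ⟨b, hb, c, hc, hbc⟩ := Submodule.mem_sup.1 (hk (Ideal.pow_mem_pow (hxm x hx) k))
    exact ⟨b, hb, by rw [← hbc]; simpa using hc⟩
  choose! f hf1 hf2 using h1
  refine ⟨xs.map f, by simpa using hxl, ?_, ?_⟩
  · intro y hy
    obtain ⟨x, hx, rfl⟩ := List.mem_map.1 hy
    exact hf1 x hx
  · refine hx.trans ?_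
    rw [Ideal.radical_le_radical_iff]
    refine sup_le (le_sup_left.trans Ideal.le_radical) ?_
    rw [Ideal.ofList, Ideal.span_le]
    intro x hx
    refine ⟨k, ?_⟩
    have h2 : x ^ k = (x ^ k - f x) + f x := by ring
    rw [h2]
    exact Ideal.add_mem _ (Ideal.mem_sup_left (hf2 x hx))
      (Ideal.mem_sup_right (Ideal.subset_span (List.mem_map.2 ⟨x, hx, rfl⟩)))

omit [IsLocalRing R] [IsNoetherianRing R] in
theorem exists_nat_supportDim (d : ℕ) (hd : ringKrullDim R = d) (N : Type u) [AddCommGroup N]
    [Module R N] [Nontrivial N] : ∃ n : ℕ, Module.supportDim R N = n := by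
  have h1 : Module.supportDim R N ≤ (d : WithBot ℕ∞) := hd ▸ Module.supportDim_le_ringKrullDim R N
  have h2 : Module.supportDim R N ≠ ⊥ := Module.supportDim_ne_bot_of_nontrivial R N
  generalize Module.supportDim R N = x at h1 h2
  induction x using WithBot.recBotCoe with
  | bot => exact absurd rfl h2
  | coe x =>
    have h3 : x ≤ (d : ℕ∞) := by exact_mod_cast h1
    have h4 : x ≠ ⊤ := ne_top_of_le_ne_top (ENat.natCast_ne_top d) h3
    lift x to ℕ using h4
    exact ⟨x, rfl⟩

end loc

section reg

variable {R : Type u} [CommRing R] [IsRegularLocalRing R] {d : ℕ}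

/-- Nonnegativity of Serre's intersection multiplicity. -/
def NonNeg (R : Type u) [CommRing R] (d : ℕ) : Prop :=
  ∀ (M N : Type u) [AddCommGroup M] [Module R M] [Module.Finite R M] [AddCommGroup N]
    [Module R N] [Module.Finite R N], Module.length R (M ⊗[R] N) ≠ ⊤ → 0 ≤ eulerTor R (d + 1) M N

/-- The Euler characteristic of a zero module. -/
theorem eulerTor_subsingleton' {C : Type u} [CommRing C] {n : ℕ} (X Y : Type u) [AddCommGroup X]
    [Module C X] [AddCommGroup Y] [Module C Y] (hX : Subsingleton X) : eulerTor C n X Y = 0 := by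
  unfold eulerTor
  refine Finset.sum_eq_zero fun j _ => ?_
  have h0 : Subsingleton (TorM C j X Y) := tor_subsingleton_left (T := C) j X Y
  rw [Module.length_eq_zero]
  simp

theorem vanish_prime (hd : ringKrullDim R = d) (hnn : NonNeg R d)
    (P : Ideal R) [hP : P.IsPrime] (N : Type u) [AddCommGroup N] [Module R N] [Module.Finite R N]
    (hlen : Module.length R ((R ⧸ P) ⊗[R] N) ≠ ⊤)
    (hdim : Module.supportDim R (R ⧸ P) + Module.supportDim R N < d) :
    eulerTor R (d + 1) (R ⧸ P) N = 0 := by
  by_cases hN : Subsingleton N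
  · rw [eulerTor_symm]
    exact eulerTor_subsingleton' N (R ⧸ P) hN
  rw [not_subsingleton_iff_nontrivial] at hN
  obtain ⟨zs, -, -, hzl, hzh, hzd, -⟩ := exists_ci hd P
  obtain ⟨n, hn⟩ := exists_nat_supportDim d hd N
  have hlt : n < zs.length := by
    rw [hzd, hn] at hdim
    have h1 : (d - zs.length) + n < d := by exact_mod_cast hdim
    omega
  obtain ⟨k, hk⟩ := exists_pow_le_sup_annihilator _ _ hlen
  rw [Ideal.annihilator_quotient] at hk
  obtain ⟨ys, hyl, hyP, hy⟩ := exists_params_in P N n hn k hk
  have hle : Ideal.ofList ys ≤ P := by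
    rw [Ideal.ofList, Ideal.span_le]
    exact hyP
  obtain ⟨P', hP', hP'P⟩ := Ideal.exists_minimalPrimes_le hle
  have hP'p : P'.IsPrime := hP'.1.1
  have hht : P'.height ≤ n := by
    have h1 := Ideal.height_le_card_of_mem_minimalPrimes_span (List.finite_toSet ys) hP'
    refine h1.trans ?_
    have h2 : ({r | r ∈ ys} : Set R).ncard ≤ ys.length := by
      classical
      have h3 : ({r | r ∈ ys} : Set R) = (ys.toFinset : Set R) := by
        ext r; simp
      rw [h3, Set.ncard_coe_finset]
      exact List.toFinset_card_le ys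
    rw [← hyl]
    exact_mod_cast h2
  have hne : P' < P := by
    refine lt_of_le_of_ne hP'P ?_
    rintro rfl
    rw [hzh] at hht
    have h1 : zs.length ≤ n := by exact_mod_cast hht
    omega
  obtain ⟨x, hxP, hxP'⟩ := SetLike.exists_of_lt hne
  have hlen' : Module.length R ((R ⧸ P') ⊗[R] N) ≠ ⊤ := by
    apply length_tensor_of_radical
    rw [Ideal.annihilator_quotient]
    exact hy.trans (Ideal.radical_mono (sup_le le_sup_right (hP'.1.2.trans le_sup_left)))
  have hdom : IsDomain (R ⧸ P') := Ideal.Quotient.isDomain P'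
  let f : (R ⧸ P') →ₗ[R] (R ⧸ P') := LinearMap.lsmul R (R ⧸ P') x
  have hf : Injective f := by
    rw [injective_iff_map_eq_zero]
    intro y hy
    have h1 : x • y = 0 := hy
    rw [Algebra.smul_def, mul_eq_zero] at h1
    rcases h1 with h1 | h1
    · exact absurd (Ideal.Quotient.eq_zero_iff_mem.1 h1) hxP'
    · exact h1
  have hWlen : Module.length R (((R ⧸ P') ⧸ LinearMap.range f) ⊗[R] N) ≠ ⊤ :=
    length_tensor_ne_top_of_annihilator_le (R ⧸ P') _ N hlen'
      (LinearMap.annihilator_le_of_surjective _ (Submodule.mkQ_surjective (LinearMap.range f)))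
  have h0 : eulerTor R (d + 1) ((R ⧸ P') ⧸ LinearMap.range f) N = 0 := by
    have h1 := eulerTor_add f (LinearMap.range f).mkQ hf (Submodule.mkQ_surjective _)
      (LinearMap.exact_map_mkQ_range f) N d (fun j => tor_length_ne_top j _ _ hlen')
      (fun j => tor_length_ne_top j _ _ hlen') (fun j => tor_length_ne_top j _ _ hWlen)
      (regular_tor_vanish R d hd _ N (d + 1) le_rfl)
    linarith
  let q : ((R ⧸ P') ⧸ LinearMap.range f) →ₗ[R] (R ⧸ P) :=
    (LinearMap.range f).liftQ (Submodule.factor hP'P) (by
      rintro _ ⟨y, rfl⟩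
      rw [LinearMap.mem_ker]
      change (Submodule.factor hP'P) (x • y) = 0
      rw [map_smul, Algebra.smul_def]
      have h1 : algebraMap R (R ⧸ P) x = 0 := Ideal.Quotient.eq_zero_iff_mem.2 hxP
      rw [h1, zero_mul])
  have hq : Surjective q := by
    intro y
    obtain ⟨z, rfl⟩ := Submodule.factor_surjective hP'P y
    exact ⟨(LinearMap.range f).mkQ z, Submodule.liftQ_apply _ _ _⟩
  have hKlen : Module.length R ((LinearMap.ker q) ⊗[R] N) ≠ ⊤ :=
    length_tensor_ne_top_of_annihilator_le _ _ N hWlen
      (LinearMap.annihilator_le_of_injective (LinearMap.ker q).subtype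
        (Submodule.injective_subtype _))
  have h1 := eulerTor_add (LinearMap.ker q).subtype q (Submodule.injective_subtype _) hq
      (LinearMap.exact_subtype_ker_map q) N d (fun j => tor_length_ne_top j _ _ hKlen)
      (fun j => tor_length_ne_top j _ _ hWlen) (fun j => tor_length_ne_top j _ _ hlen)
      (regular_tor_vanish R d hd _ N (d + 1) le_rfl)
  have h2 := hnn (LinearMap.ker q) N hKlen
  have h3 := hnn (R ⧸ P) N hlen
  linarith

/-- **Vanishing.** -/
theorem vanish (hd : ringKrullDim R = d) (hnn : NonNeg R d)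
    (M N : Type u) [AddCommGroup M] [Module R M] [Module.Finite R M] [AddCommGroup N]
    [Module R N] [Module.Finite R N] (hlen : Module.length R (M ⊗[R] N) ≠ ⊤)
    (hdim : Module.supportDim R M + Module.supportDim R N < d) :
    eulerTor R (d + 1) M N = 0 := by
  suffices H : ∀ (M' : Type u) [AddCommGroup M'] [Module R M'] (_ : Module.Finite R M'),
      Module.length R (M' ⊗[R] N) ≠ ⊤ →
      Module.supportDim R M' + Module.supportDim R N < d → eulerTor R (d + 1) M' N = 0 from
    H M inferInstance hlen hdim
  clear hlen hdim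
  intro M' _ _ hM
  induction hM using IsNoetherianRing.induction_on_isQuotientEquivQuotientPrime R with
  | subsingleton M =>
    intro _ _
    exact eulerTor_subsingleton' M N inferInstance
  | quotient M p e =>
    intro hlen hdim
    have hp := p.2
    rw [eulerTor_congr e (LinearEquiv.refl R N)]
    refine vanish_prime hd hnn p.1 N ?_ ?_
    · refine length_tensor_ne_top_of_annihilator_le M _ N hlen ?_
      exact e.annihilator_eq.le
    · rw [← Module.supportDim_eq_of_equiv e]
      exact hdim
  | exact M' M M'' f g hf hg hex h1 h3 =>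
    intro hlen hdim
    have hlen' : Module.length R (M' ⊗[R] N) ≠ ⊤ :=
      length_tensor_ne_top_of_annihilator_le M M' N hlen
        (LinearMap.annihilator_le_of_injective f hf)
    have hlen'' : Module.length R (M'' ⊗[R] N) ≠ ⊤ :=
      length_tensor_ne_top_of_annihilator_le M M'' N hlen
        (LinearMap.annihilator_le_of_surjective g hg)
    rw [eulerTor_add f g hf hg hex N d (fun j => tor_length_ne_top j _ _ hlen')
      (fun j => tor_length_ne_top j _ _ hlen) (fun j => tor_length_ne_top j _ _ hlen'')
      (regular_tor_vanish R d hd _ N (d + 1) le_rfl),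
      h1 hlen' (lt_of_le_of_lt (by gcongr; exact Module.supportDim_le_of_injective f hf) hdim),
      h3 hlen'' (lt_of_le_of_lt (by gcongr; exact Module.supportDim_le_of_surjective g hg) hdim),
      add_zero]

end reg

end Vale.Agent.P177.H391
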