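import Mathlib
import Vale.Agent.P177.Bd4.B16
import Vale.Agent.P177.Bd4.B17
import Vale.Agent.P177.Bd4.B15
import Vale.Agent.P177.H391.Van
import Vale.Agent.P177.H391.LocLen

/-!
The cycle formula for Serre's intersection multiplicity.
-/

namespace Vale.Agent.P177.H391

open CategoryTheory TensorProduct Function IsLocalRing Vale.Agent.P177

universe u

section cyc

variable {R : Type u} [CommRing R]

open scoped Classical in
/-- The coefficient at `P` of the `m`-dimensional cycle of `M`. -/
noncomputable def cyc (m : ℕ) (M : Type u) [AddCommGroup M] [Module R M]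
    (P : PrimeSpectrum R) : ℤ :=
  if Module.supportDim R (R ⧸ P.asIdeal) = m then ((locLen P.asIdeal M).toNat : ℤ) else 0

theorem cyc_of_ne {m : ℕ} {M : Type u} [AddCommGroup M] [Module R M] {P : PrimeSpectrum R}
    (h : Module.supportDim R (R ⧸ P.asIdeal) ≠ m) : cyc m M P = 0 := if_neg h

theorem cyc_of_eq {m : ℕ} {M : Type u} [AddCommGroup M] [Module R M] {P : PrimeSpectrum R}
    (h : Module.supportDim R (R ⧸ P.asIdeal) = m) : cyc m M P = ((locLen P.asIdeal M).toNat : ℤ) :=
  if_pos h

theorem cyc_nonneg (m : ℕ) (M : Type u) [AddCommGroup M] [Module R M] (P : PrimeSpectrum R) :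
    0 ≤ cyc m M P := by
  unfold cyc
  split_ifs
  · positivity
  · exact le_rfl

theorem dim_of_cyc_ne_zero {m : ℕ} {M : Type u} [AddCommGroup M] [Module R M]
    {P : PrimeSpectrum R} (h : cyc m M P ≠ 0) : Module.supportDim R (R ⧸ P.asIdeal) = m := by
  by_contra hne
  exact h (cyc_of_ne hne)

theorem ann_le_of_cyc_ne_zero {m : ℕ} {M : Type u} [AddCommGroup M] [Module R M]
    {P : PrimeSpectrum R} (h : cyc m M P ≠ 0) : Module.annihilator R M ≤ P.asIdeal := by
  apply le_of_locLen_ne_zero
  intro h0
  apply h
  rw [cyc_of_eq (dim_of_cyc_ne_zero h), h0]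
  rfl

theorem cyc_subsingleton (m : ℕ) (M : Type u) [AddCommGroup M] [Module R M] [Subsingleton M]
    (P : PrimeSpectrum R) : cyc m M P = 0 := by
  unfold cyc
  rw [locLen_subsingleton]
  simp

theorem cyc_congr (m : ℕ) {M M' : Type u} [AddCommGroup M] [Module R M] [AddCommGroup M']
    [Module R M'] (e : M ≃ₗ[R] M') (P : PrimeSpectrum R) : cyc m M P = cyc m M' P := by
  unfold cyc
  rw [locLen_congr P.asIdeal e]

theorem cyc_add (m : ℕ) {M' M M'' : Type u} [AddCommGroup M'] [Module R M'] [AddCommGroup M]
    [Module R M] [AddCommGroup M''] [Module R M''] (f : M' →ₗ[R] M) (g : M →ₗ[R] M'')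
    (hf : Injective f) (hg : Surjective g) (hfg : Exact f g) (P : PrimeSpectrum R)
    (h : Module.supportDim R (R ⧸ P.asIdeal) = m → locLen P.asIdeal M ≠ ⊤) :
    cyc m M P = cyc m M' P + cyc m M'' P := by
  by_cases hP : Module.supportDim R (R ⧸ P.asIdeal) = m
  · rw [cyc_of_eq hP, cyc_of_eq hP, cyc_of_eq hP]
    have h1 := locLen_add P.asIdeal f g hf hg hfg
    have h2 := h hP
    rw [h1] at h2
    have h3 := WithTop.add_ne_top.1 h2
    rw [h1, ENat.toNat_add h3.1 h3.2]
    push_cast
    rfl
  · rw [cyc_of_ne hP, cyc_of_ne hP, cyc_of_ne hP, add_zero]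

end cyc

section reg

variable {R : Type u} [CommRing R] [IsRegularLocalRing R] {d : ℕ}

theorem eq_of_dim_le (hd : ringKrullDim R = d) {p P : Ideal R} [p.IsPrime] [P.IsPrime]
    (hle : p ≤ P) (h : Module.supportDim R (R ⧸ p) ≤ Module.supportDim R (R ⧸ P)) : p = P := by
  obtain ⟨zs, -, -, hzl, hzh, hzd, -⟩ := exists_ci hd p
  obtain ⟨ws, -, -, hwl, hwh, hwd, -⟩ := exists_ci hd P
  by_contra hne
  have hlt := Ideal.height_strict_mono_of_isPrime (lt_of_le_of_ne hle hne)
  rw [hzh, hwh] at hlt
  rw [hzd, hwd] at h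
  have h1 : zs.length < ws.length := by exact_mod_cast hlt
  have h2 : d - zs.length ≤ d - ws.length := by exact_mod_cast h
  omega

theorem cyc_quotient (hd : ringKrullDim R = d) (m : ℕ) (p P : PrimeSpectrum R)
    (hm : Module.supportDim R (R ⧸ p.asIdeal) ≤ m)
    (hP : Module.supportDim R (R ⧸ P.asIdeal) = m) (hne : P ≠ p) :
    locLen P.asIdeal (R ⧸ p.asIdeal) = 0 := by
  by_contra h
  have h1 := le_of_locLen_ne_zero P.asIdeal h
  rw [Ideal.annihilator_quotient] at h1
  exact hne (PrimeSpectrum.ext (eq_of_dim_le hd h1 (by rw [hP]; exact hm)).symm)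

theorem cyc_props (hd : ringKrullDim R = d) (m : ℕ) (M : Type u) [AddCommGroup M] [Module R M]
    [Module.Finite R M] (hM : Module.supportDim R M ≤ m) :
    (∀ P : PrimeSpectrum R, Module.supportDim R (R ⧸ P.asIdeal) = m → locLen P.asIdeal M ≠ ⊤) ∧
    (support (cyc m M : PrimeSpectrum R → ℤ)).Finite := by
  suffices H : ∀ (M' : Type u) [AddCommGroup M'] [Module R M'] (_ : Module.Finite R M'),
      Module.supportDim R M' ≤ m →
      (∀ P : PrimeSpectrum R, Module.supportDim R (R ⧸ P.asIdeal) = m →
        locLen P.asIdeal M' ≠ ⊤) ∧ (support (cyc m M' : PrimeSpectrum R → ℤ)).Finite from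
    H M inferInstance hM
  clear hM
  intro M' _ _ hM
  induction hM using IsNoetherianRing.induction_on_isQuotientEquivQuotientPrime R with
  | subsingleton M =>
    intro _
    refine ⟨fun P _ => ?_, ?_⟩
    · rw [locLen_subsingleton]
      exact ENat.zero_ne_top
    · have : (cyc m M : PrimeSpectrum R → ℤ) = 0 := funext fun P => cyc_subsingleton m M P
      rw [this, support_zero]
      exact Set.finite_empty
  | quotient M p e =>
    intro hdim
    rw [Module.supportDim_eq_of_equiv e] at hdim
    refine ⟨fun P hP => ?_, ?_⟩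
    · rw [locLen_congr P.asIdeal e]
      by_cases hne : P = p
      · subst hne
        rw [locLen_self]
        exact ENat.one_ne_top
      · rw [cyc_quotient hd m p P hdim hP hne]
        exact ENat.zero_ne_top
    · refine (Set.finite_singleton p).subset ?_
      intro P hP
      by_contra hne
      rw [mem_support] at hP
      apply hP
      rw [cyc_congr m e, cyc_of_eq (dim_of_cyc_ne_zero hP)]
      change ((locLen P.asIdeal (R ⧸ p.asIdeal)).toNat : ℤ) = 0
      rw [cyc_quotient hd m p P hdim (dim_of_cyc_ne_zero hP) hne]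
      rfl
  | exact M' M M'' f g hf hg hex h1 h3 =>
    intro hdim
    have h1' := h1 ((Module.supportDim_le_of_injective f hf).trans hdim)
    have h3' := h3 ((Module.supportDim_le_of_surjective g hg).trans hdim)
    have h0 : ∀ P : PrimeSpectrum R, Module.supportDim R (R ⧸ P.asIdeal) = m →
        locLen P.asIdeal M ≠ ⊤ := fun P hP => by
      rw [locLen_add P.asIdeal f g hf hg hex]
      exact WithTop.add_ne_top.2 ⟨h1'.1 P hP, h3'.1 P hP⟩
    refine ⟨h0, (h1'.2.union h3'.2).subset ?_⟩
    intro P hP
    rw [mem_support, cyc_add m f g hf hg hex P (h0 P)] at hP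
    by_contra hcon
    rw [Set.mem_union, not_or, mem_support, mem_support, not_not, not_not] at hcon
    rw [hcon.1, hcon.2, add_zero] at hP
    exact hP rfl

/-- The cycle formula in the left variable. -/
theorem left_formula (hd : ringKrullDim R = d) (hnn : NonNeg R d) (m n : ℕ) (hmn : m + n = d)
    (N : Type u) [AddCommGroup N] [Module R N] [Module.Finite R N]
    (hN : Module.supportDim R N ≤ n) (M : Type u) [AddCommGroup M] [Module R M]
    [Module.Finite R M] (hM : Module.supportDim R M ≤ m)
    (hlen : Module.length R (M ⊗[R] N) ≠ ⊤) :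
    eulerTor R (d + 1) M N =
      ∑ᶠ P : PrimeSpectrum R, cyc m M P * eulerTor R (d + 1) (R ⧸ P.asIdeal) N := by
  suffices H : ∀ (M' : Type u) [AddCommGroup M'] [Module R M'] (_ : Module.Finite R M'),
      Module.supportDim R M' ≤ m → Module.length R (M' ⊗[R] N) ≠ ⊤ →
      eulerTor R (d + 1) M' N =
        ∑ᶠ P : PrimeSpectrum R, cyc m M' P * eulerTor R (d + 1) (R ⧸ P.asIdeal) N from
    H M inferInstance hM hlen
  clear hM hlen
  intro M' _ _ hM
  induction hM using IsNoetherianRing.induction_on_isQuotientEquivQuotientPrime R with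
  | subsingleton M =>
    intro _ _
    rw [eulerTor_subsingleton' M N inferInstance]
    symm
    apply finsum_eq_zero_of_forall_eq_zero
    intro P
    rw [cyc_subsingleton, zero_mul]
  | quotient M p e =>
    intro hdim hlen
    rw [eulerTor_congr e (LinearEquiv.refl R N)]
    rw [Module.supportDim_eq_of_equiv e] at hdim
    have hlen' : Module.length R ((R ⧸ p.asIdeal) ⊗[R] N) ≠ ⊤ :=
      length_tensor_ne_top_of_annihilator_le M _ N hlen e.annihilator_eq.le
    have hp := p.2
    by_cases hpm : Module.supportDim R (R ⧸ p.asIdeal) = m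
    · rw [finsum_eq_single _ p]
      · rw [cyc_congr m e, cyc_of_eq hpm]
        change _ = ((locLen p.asIdeal (R ⧸ p.asIdeal)).toNat : ℤ) * _
        rw [locLen_self]
        simp
      · intro P hne
        by_cases hP : Module.supportDim R (R ⧸ P.asIdeal) = m
        · rw [cyc_congr m e, cyc_of_eq hP]
          change ((locLen P.asIdeal (R ⧸ p.asIdeal)).toNat : ℤ) * _ = 0
          rw [cyc_quotient hd m p P hdim hP hne]
          simp
        · rw [cyc_of_ne hP, zero_mul]
    · have hlt : Module.supportDim R (R ⧸ p.asIdeal) < m := lt_of_le_of_ne hdim hpm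
      have h0 : eulerTor R (d + 1) (R ⧸ p.asIdeal) N = 0 := by
        refine vanish_prime hd hnn p.asIdeal N hlen' ?_
        by_cases hNs : Subsingleton N
        · rw [Module.supportDim_eq_bot_of_subsingleton R N, WithBot.add_bot]
          exact WithBot.bot_lt_coe _
        · rw [not_subsingleton_iff_nontrivial] at hNs
          obtain ⟨n', hn'⟩ := exists_nat_supportDim d hd N
          obtain ⟨m', hm'⟩ := exists_nat_supportDim d hd (R ⧸ p.asIdeal)
          rw [hm'] at hlt
          rw [hn'] at hN
          rw [hm', hn']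
          have h1 : m' < m := by exact_mod_cast hlt
          have h2 : n' ≤ n := by exact_mod_cast hN
          have h3 : m' + n' < d := by omega
          exact_mod_cast h3
      change eulerTor R (d + 1) (R ⧸ p.asIdeal) N = _
      rw [h0]
      symm
      apply finsum_eq_zero_of_forall_eq_zero
      intro P
      by_cases hP : Module.supportDim R (R ⧸ P.asIdeal) = m
      · have hne : P ≠ p := by
          rintro rfl
          exact hpm hP
        rw [cyc_congr m e, cyc_of_eq hP]
        change ((locLen P.asIdeal (R ⧸ p.asIdeal)).toNat : ℤ) * _ = 0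
        rw [cyc_quotient hd m p P hdim hP hne]
        simp
      · rw [cyc_of_ne hP, zero_mul]
  | exact M' M M'' f g hf hg hex h1 h3 =>
    intro hdim hlen
    have hdim' := (Module.supportDim_le_of_injective f hf).trans hdim
    have hdim'' := (Module.supportDim_le_of_surjective g hg).trans hdim
    have hlen' : Module.length R (M' ⊗[R] N) ≠ ⊤ :=
      length_tensor_ne_top_of_annihilator_le M M' N hlen
        (LinearMap.annihilator_le_of_injective f hf)
    have hlen'' : Module.length R (M'' ⊗[R] N) ≠ ⊤ :=
      length_tensor_ne_top_of_annihilator_le M M'' N hlen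
        (LinearMap.annihilator_le_of_surjective g hg)
    rw [eulerTor_add f g hf hg hex N d (fun j => tor_length_ne_top j _ _ hlen')
      (fun j => tor_length_ne_top j _ _ hlen) (fun j => tor_length_ne_top j _ _ hlen'')
      (regular_tor_vanish R d hd _ N (d + 1) le_rfl),
      h1 hdim' hlen', h3 hdim'' hlen'', ← finsum_add_distrib]
    · refine finsum_congr fun P => ?_
      rw [cyc_add m f g hf hg hex P ((cyc_props hd m M hdim).1 P), add_mul]
    · exact (cyc_props hd m M' hdim').2.subset (support_mul_subset_left _ _)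
    · exact (cyc_props hd m M'' hdim'').2.subset (support_mul_subset_left _ _)

/-- The cycle formula. -/
theorem cycle_formula (hd : ringKrullDim R = d) (hnn : NonNeg R d) (m n : ℕ) (hmn : m + n = d)
    (M : Type u) [AddCommGroup M] [Module R M] [Module.Finite R M]
    (hM : Module.supportDim R M ≤ m)
    (N : Type u) [AddCommGroup N] [Module R N] [Module.Finite R N]
    (hN : Module.supportDim R N ≤ n)
    (hlen : Module.length R (M ⊗[R] N) ≠ ⊤) :
    eulerTor R (d + 1) M N =
      ∑ᶠ P : PrimeSpectrum R, ∑ᶠ Q : PrimeSpectrum R,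
        cyc m M P * cyc n N Q * eulerTor R (d + 1) (R ⧸ P.asIdeal) (R ⧸ Q.asIdeal) := by
  rw [left_formula hd hnn m n hmn N hN M hM hlen]
  refine finsum_congr fun P => ?_
  by_cases hP : cyc m M P = 0
  · rw [hP, zero_mul]
    symm
    apply finsum_eq_zero_of_forall_eq_zero
    intro Q
    rw [zero_mul, zero_mul]
  · have h1 : Module.length R ((R ⧸ P.asIdeal) ⊗[R] N) ≠ ⊤ :=
      length_tensor_ne_top_of_annihilator_le M _ N hlen (by
        rw [Ideal.annihilator_quotient]
        exact ann_le_of_cyc_ne_zero hP)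
    have h2 : Module.length R (N ⊗[R] (R ⧸ P.asIdeal)) ≠ ⊤ := by
      rwa [(TensorProduct.comm R N (R ⧸ P.asIdeal)).length_eq]
    rw [eulerTor_symm, left_formula hd hnn n m (by omega) (R ⧸ P.asIdeal)
      (dim_of_cyc_ne_zero hP).le N hN h2, mul_finsum]
    · refine finsum_congr fun Q => ?_
      rw [eulerTor_symm (R ⧸ Q.asIdeal) (R ⧸ P.asIdeal), mul_assoc]

end reg

end Vale.Agent.P177.H391
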