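import Mathlib
import Vale.Agent.P177.Bd4.B23
import Vale.Agent.P177.Bd4.B24
import Vale.Agent.P177.H391.Cycle

/-!
Serre's intersection multiplicity: positivity, vanishing and the cycle formula together.
-/

namespace Vale.Agent.P177.H391

open CategoryTheory TensorProduct Function IsLocalRing Vale.Agent.P177

universe u

section reg

variable {R : Type u} [CommRing R] [IsRegularLocalRing R] {d : ℕ}

theorem serreAll (hd : ringKrullDim R = d) : SerreAll R d :=
  serreAll_of_flag Vale.Agent.P177.flagStmt R d hd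

theorem nonNeg (hd : ringKrullDim R = d) : NonNeg R d :=
  fun M N _ _ _ _ _ _ h => (serreAll hd M N h).1

theorem dim_le (hd : ringKrullDim R = d) (M N : Type u) [AddCommGroup M] [Module R M]
    [Module.Finite R M] [AddCommGroup N] [Module R N] [Module.Finite R N]
    (hlen : Module.length R (M ⊗[R] N) ≠ ⊤) :
    Module.supportDim R M + Module.supportDim R N ≤ d := by
  by_cases hM : Subsingleton M
  · rw [Module.supportDim_eq_bot_of_subsingleton R M, WithBot.bot_add]
    exact bot_le
  by_cases hN : Subsingleton N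
  · rw [Module.supportDim_eq_bot_of_subsingleton R N, WithBot.add_bot]
    exact bot_le
  rw [not_subsingleton_iff_nontrivial] at hM hN
  obtain ⟨m, hm⟩ := exists_nat_supportDim d hd M
  obtain ⟨n, hn⟩ := exists_nat_supportDim d hd N
  rw [hm, hn]
  exact_mod_cast ((serreAll hd M N hlen).2 m n hm.ge hn.ge).1

theorem pos_of_dim (hd : ringKrullDim R = d) (M N : Type u) [AddCommGroup M] [Module R M]
    [Module.Finite R M] [AddCommGroup N] [Module R N] [Module.Finite R N]
    (hlen : Module.length R (M ⊗[R] N) ≠ ⊤)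
    (hdim : Module.supportDim R M + Module.supportDim R N = d) :
    0 < eulerTor R (d + 1) M N := by
  obtain ⟨m, n, hm, hn, hmn⟩ := exists_nat_of_sum_eq _ _ d hdim
  exact ((serreAll hd M N hlen).2 m n hm.ge hn.ge).2 hmn.ge

theorem pos_iff (hd : ringKrullDim R = d) (M N : Type u) [AddCommGroup M] [Module R M]
    [Module.Finite R M] [AddCommGroup N] [Module R N] [Module.Finite R N]
    (hlen : Module.length R (M ⊗[R] N) ≠ ⊤) :
    0 < eulerTor R (d + 1) M N ↔ Module.supportDim R M + Module.supportDim R N = d := by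
  refine ⟨fun h => ?_, pos_of_dim hd M N hlen⟩
  by_contra hne
  have h1 := vanish hd (nonNeg hd) M N hlen (lt_of_le_of_ne (dim_le hd M N hlen) hne)
  omega

/-- The lower bound for the intersection multiplicity. -/
theorem lower_bound (hd : ringKrullDim R = d) (m n : ℕ) (hmn : m + n = d)
    (M : Type u) [AddCommGroup M] [Module R M] [Module.Finite R M]
    (hM : Module.supportDim R M ≤ m)
    (N : Type u) [AddCommGroup N] [Module R N] [Module.Finite R N]
    (hN : Module.supportDim R N ≤ n)
    (hlen : Module.length R (M ⊗[R] N) ≠ ⊤) :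
    (∑ᶠ P : PrimeSpectrum R, cyc m M P) * (∑ᶠ Q : PrimeSpectrum R, cyc n N Q) ≤
      eulerTor R (d + 1) M N := by
  rw [cycle_formula hd (nonNeg hd) m n hmn M hM N hN hlen]
  have hsM := (cyc_props hd m M hM).2
  have hsN := (cyc_props hd n N hN).2
  have h1 : ∀ P Q : PrimeSpectrum R, cyc m M P * cyc n N Q ≤
      cyc m M P * cyc n N Q * eulerTor R (d + 1) (R ⧸ P.asIdeal) (R ⧸ Q.asIdeal) := by
    intro P Q
    by_cases hP : cyc m M P = 0
    · rw [hP]; simp
    by_cases hQ : cyc n N Q = 0
    · rw [hQ]; simp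
    have h2 : Module.length R ((R ⧸ P.asIdeal) ⊗[R] N) ≠ ⊤ :=
      length_tensor_ne_top_of_annihilator_le M _ N hlen (by
        rw [Ideal.annihilator_quotient]
        exact ann_le_of_cyc_ne_zero hP)
    have h3 : Module.length R (N ⊗[R] (R ⧸ P.asIdeal)) ≠ ⊤ := by
      rwa [(TensorProduct.comm R N (R ⧸ P.asIdeal)).length_eq]
    have h4 : Module.length R ((R ⧸ Q.asIdeal) ⊗[R] (R ⧸ P.asIdeal)) ≠ ⊤ :=
      length_tensor_ne_top_of_annihilator_le N _ _ h3 (by
        rw [Ideal.annihilator_quotient]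
        exact ann_le_of_cyc_ne_zero hQ)
    have h5 : Module.length R ((R ⧸ P.asIdeal) ⊗[R] (R ⧸ Q.asIdeal)) ≠ ⊤ := by
      rwa [(TensorProduct.comm R (R ⧸ P.asIdeal) (R ⧸ Q.asIdeal)).length_eq]
    have h6 := pos_of_dim hd (R ⧸ P.asIdeal) (R ⧸ Q.asIdeal) h5 (by
      rw [dim_of_cyc_ne_zero hP, dim_of_cyc_ne_zero hQ]
      exact_mod_cast hmn)
    have h7 : 0 ≤ cyc m M P * cyc n N Q := mul_nonneg (cyc_nonneg m M P) (cyc_nonneg n N Q)
    nlinarith
  rw [finsum_mul]
  have hin : ∀ P : PrimeSpectrum R, cyc m M P * (∑ᶠ Q : PrimeSpectrum R, cyc n N Q) ≤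
      ∑ᶠ Q : PrimeSpectrum R, cyc m M P * cyc n N Q *
        eulerTor R (d + 1) (R ⧸ P.asIdeal) (R ⧸ Q.asIdeal) := by
    intro P
    rw [mul_finsum]
    refine finsum_le_finsum' ?_ ?_ (fun Q => h1 P Q)
    · exact hsN.subset (support_mul_subset_right _ _)
    · exact (hsN.subset (support_mul_subset_right _ _)).subset (support_mul_subset_left _ _)
  refine finsum_le_finsum' ?_ ?_ hin
  · exact hsM.subset (support_mul_subset_left _ _)
  · refine hsM.subset ?_
    intro P hP
    rw [mem_support] at hP ⊢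
    intro h0
    apply hP
    apply finsum_eq_zero_of_forall_eq_zero
    intro Q
    rw [h0, zero_mul, zero_mul]

end reg

end Vale.Agent.P177.H391
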