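import Mathlib
import Vale.Agent.P177.H391.Full

/-!
Intersection multiplicities along components on regular rings.
-/

namespace Vale.Agent.P177.H391

open CategoryTheory TensorProduct Function IsLocalRing Vale.Agent.P177

universe u

theorem glob (S : Type u) [CommRing S] [IsRegularLocalRing S] (A : Type u) [CommRing A]
    [Algebra A S] (m P Q : Ideal A) [m.IsPrime] [IsLocalization.AtPrime S m]
    (hP : P.IsPrime) (hQ : Q.IsPrime) (hm : m ∈ (P ⊔ Q).minimalPrimes) (h : ℕ)
    (hh : m.height = h) :
    ringKrullDim S = h ∧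
    Module.length S ((S ⧸ P.map (algebraMap A S)) ⊗[S] (S ⧸ Q.map (algebraMap A S))) ≠ ⊤ ∧
    m.height ≤ P.height + Q.height ∧
    0 ≤ eulerTor S (h + 1) (S ⧸ P.map (algebraMap A S)) (S ⧸ Q.map (algebraMap A S)) ∧
    (0 < eulerTor S (h + 1) (S ⧸ P.map (algebraMap A S)) (S ⧸ Q.map (algebraMap A S)) ↔
      m.height = P.height + Q.height) := by
  have hd : ringKrullDim S = h := by
    rw [IsLocalization.AtPrime.ringKrullDim_eq_height m S, hh]
    rfl
  have hPm : P ≤ m := le_sup_left.trans hm.1.2
  have hQm : Q ≤ m := le_sup_right.trans hm.1.2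
  have hPd : Disjoint (m.primeCompl : Set A) (P : Set A) :=
    Set.disjoint_left.2 fun x hx hxP => hx (hPm hxP)
  have hQd : Disjoint (m.primeCompl : Set A) (Q : Set A) :=
    Set.disjoint_left.2 fun x hx hxQ => hx (hQm hxQ)
  have hP' : (P.map (algebraMap A S)).IsPrime :=
    IsLocalization.isPrime_of_isPrime_disjoint m.primeCompl S P hP hPd
  have hQ' : (Q.map (algebraMap A S)).IsPrime :=
    IsLocalization.isPrime_of_isPrime_disjoint m.primeCompl S Q hQ hQd
  have hPh : (P.map (algebraMap A S)).height = P.height :=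
    IsLocalization.height_map_of_disjoint m.primeCompl P hPd
  have hQh : (Q.map (algebraMap A S)).height = Q.height :=
    IsLocalization.height_map_of_disjoint m.primeCompl Q hQd
  obtain ⟨zs, -, -, hzl, hzh, hzd, -⟩ := exists_ci hd (P.map (algebraMap A S))
  obtain ⟨ws, -, -, hwl, hwh, hwd, -⟩ := exists_ci hd (Q.map (algebraMap A S))
  have hlen : Module.length S
      ((S ⧸ P.map (algebraMap A S)) ⊗[S] (S ⧸ Q.map (algebraMap A S))) ≠ ⊤ := by
    apply length_tensor_of_radical
    rw [Ideal.annihilator_quotient, Ideal.annihilator_quotient, ← Ideal.map_sup,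
      IsLocalization.AtPrime.radical_map_of_mem_minimalPrimes S m _ hm]
    exact (IsLocalization.AtPrime.map_eq_maximalIdeal m S).ge
  have h1 := dim_le hd _ _ hlen
  have h2 := pos_iff hd _ _ hlen
  rw [hzd, hwd] at h1 h2
  rw [hPh] at hzh
  rw [hQh] at hwh
  have h3 : (h - zs.length) + (h - ws.length) ≤ h := by exact_mod_cast h1
  refine ⟨hd, hlen, ?_, (nonNeg hd) _ _ hlen, ?_⟩
  · rw [hh, hzh, hwh]
    have h4 : h ≤ zs.length + ws.length := by omega
    exact_mod_cast h4
  · rw [h2, hh, hzh, hwh]
    constructor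
    · intro h4
      have h5 : (h - zs.length) + (h - ws.length) = h := by exact_mod_cast h4
      have h6 : h = zs.length + ws.length := by omega
      exact_mod_cast h6
    · intro h4
      have h5 : h = zs.length + ws.length := by exact_mod_cast h4
      have h6 : (h - zs.length) + (h - ws.length) = h := by omega
      exact_mod_cast h6

end Vale.Agent.P177.H391
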