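import Mathlib
import Vale.Agent.P177.H391.Full

/-!
Additive functionals on modules and their values on cycles.
-/

namespace Vale.Agent.P177.H391

open CategoryTheory TensorProduct Function IsLocalRing Vale.Agent.P177

universe u

section addv

variable {R : Type u} [CommRing R] [IsLocalRing R]

/-- `V(Ann X + J)` is contained in the closed point. -/
def FinC (J : Ideal R) (X : Type u) [AddCommGroup X] [Module R X] : Prop :=
  maximalIdeal R ≤ (Module.annihilator R X ⊔ J).radical

theorem FinC.mono {J : Ideal R} {X Y : Type u} [AddCommGroup X] [Module R X] [AddCommGroup Y]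
    [Module R Y] (hX : FinC J X) (h : Module.annihilator R X ≤ Module.annihilator R Y) :
    FinC J Y :=
  le_trans hX (Ideal.radical_mono (sup_le_sup_right h J))

theorem FinC.quot {J : Ideal R} {X : Type u} [AddCommGroup X] [Module R X]
    (hX : FinC J X) {P : Ideal R} (h : Module.annihilator R X ≤ P) : FinC J (R ⧸ P) :=
  hX.mono (by rwa [Ideal.annihilator_quotient])

/-- An additive functional on the finite modules `X` with `FinC J X`. -/
def Addv (J : Ideal R) (φ : ModuleCat.{u} R → ℤ) : Prop :=
  ∀ (X' X X'' : Type u) [AddCommGroup X'] [Module R X'] [Module.Finite R X'] [AddCommGroup X]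
    [Module R X] [Module.Finite R X] [AddCommGroup X''] [Module R X''] [Module.Finite R X'']
    (f : X' →ₗ[R] X) (g : X →ₗ[R] X''),
    Injective f → Surjective g → Exact f g → FinC J X →
    φ (ModuleCat.of R X) = φ (ModuleCat.of R X') + φ (ModuleCat.of R X'')

variable {J : Ideal R} {φ : ModuleCat.{u} R → ℤ}

theorem Addv.subsingleton (hφ : Addv J φ) (X : Type u) [AddCommGroup X] [Module R X]
    [Subsingleton X] : φ (ModuleCat.of R X) = 0 := by
  have hX : FinC J X := by
    unfold FinC
    have h1 : Module.annihilator R X = ⊤ := by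
      rw [Ideal.eq_top_iff_one, Module.mem_annihilator]
      intro m
      exact Subsingleton.elim _ _
    rw [h1, top_sup_eq, Ideal.radical_top]
    exact le_top
  have h := hφ X X X LinearMap.id LinearMap.id Function.injective_id Function.surjective_id
    (fun y => ⟨fun _ => ⟨y, rfl⟩, fun _ => Subsingleton.elim _ _⟩) hX
  linarith

theorem Addv.congr (hφ : Addv J φ) {X Y : Type u} [AddCommGroup X] [Module R X]
    [Module.Finite R X] [AddCommGroup Y] [Module R Y] [Module.Finite R Y] (e : X ≃ₗ[R] Y)
    (hX : FinC J X) : φ (ModuleCat.of R X) = φ (ModuleCat.of R Y) := by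
  have hY : FinC J Y := hX.mono e.annihilator_eq.le
  have h := hφ X Y PUnit.{u + 1} e.toLinearMap 0 e.injective
    (Function.surjective_to_subsingleton _)
    ((e.toLinearMap.exact_zero_iff_surjective _).2 e.surjective) hY
  rw [h, hφ.subsingleton PUnit.{u + 1}, add_zero]

theorem Addv.ker_add_range (hφ : Addv J φ) [IsNoetherianRing R] {X Y : Type u} [AddCommGroup X]
    [Module R X] [Module.Finite R X] [AddCommGroup Y] [Module R Y] (h : X →ₗ[R] Y)
    (hX : FinC J X) : φ (ModuleCat.of R X) = φ (ModuleCat.of R (LinearMap.ker h)) +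
      φ (ModuleCat.of R (LinearMap.range h)) :=
  hφ _ _ _ (LinearMap.ker h).subtype h.rangeRestrict (Submodule.injective_subtype _)
    (LinearMap.surjective_rangeRestrict h) (by
      intro x
      rw [Subtype.ext_iff]
      simp) hX

end addv

section reg

variable {R : Type u} [CommRing R] [IsRegularLocalRing R] {d : ℕ} {J : Ideal R}
  {φ : ModuleCat.{u} R → ℤ}

theorem dim_le_of_primes (hd : ringKrullDim R = d) (y : ℕ)
    (hp0 : ∀ P : Ideal R, P.IsPrime → FinC J (R ⧸ P) → Module.supportDim R (R ⧸ P) ≤ y)
    (X : Type u) [AddCommGroup X] [Module R X] [Module.Finite R X] (hX : FinC J X) :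
    Module.supportDim R X ≤ y := by
  by_cases h : Subsingleton X
  · rw [Module.supportDim_eq_bot_of_subsingleton R X]
    exact bot_le
  rw [not_subsingleton_iff_nontrivial] at h
  obtain ⟨x, hx⟩ := exists_nat_supportDim d hd X
  obtain ⟨p, P, hp, hP, hle⟩ := exists_prime_of_le_supportDim hd X x hx.ge
  obtain ⟨h', hh', hle', hdim⟩ := supportDim_prime_eq hd p.asIdeal
  rw [Module.support_eq_zeroLocus] at hp
  have h1 := hp0 p.asIdeal p.2 (hX.quot hp)
  rw [hP] at hh'
  have h2 : P = h' := by exact_mod_cast hh'
  rw [hdim] at h1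
  have h3 : d - h' ≤ y := by exact_mod_cast h1
  rw [hx]
  have h4 : x ≤ y := by omega
  exact_mod_cast h4

/-- The abstract cycle formula. -/
theorem Addv.cycle (hφ : Addv J φ) (hd : ringKrullDim R = d) (y : ℕ)
    (hp0 : ∀ P : Ideal R, P.IsPrime → FinC J (R ⧸ P) → Module.supportDim R (R ⧸ P) ≤ y)
    (hp1 : ∀ P : Ideal R, P.IsPrime → FinC J (R ⧸ P) → Module.supportDim R (R ⧸ P) < y →
      φ (ModuleCat.of R (R ⧸ P)) = 0)
    (X : Type u) [AddCommGroup X] [Module R X] [Module.Finite R X] (hX : FinC J X) :
    φ (ModuleCat.of R X) =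
      ∑ᶠ P : PrimeSpectrum R, cyc y X P * φ (ModuleCat.of R (R ⧸ P.asIdeal)) := by
  suffices H : ∀ (X : Type u) [AddCommGroup X] [Module R X] (_ : Module.Finite R X), FinC J X →
      φ (ModuleCat.of R X) =
        ∑ᶠ P : PrimeSpectrum R, cyc y X P * φ (ModuleCat.of R (R ⧸ P.asIdeal)) from
    H X inferInstance hX
  clear hX
  intro X _ _ hX
  induction hX using IsNoetherianRing.induction_on_isQuotientEquivQuotientPrime R with
  | subsingleton X =>
    intro _
    rw [hφ.subsingleton]
    symm
    apply finsum_eq_zero_of_forall_eq_zero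
    intro P
    rw [cyc_subsingleton, zero_mul]
  | quotient X p e =>
    intro hX
    rw [hφ.congr e hX]
    have hp := p.2
    have hX' : FinC J (R ⧸ p.asIdeal) := hX.mono e.annihilator_eq.le
    have hdim := hp0 p.asIdeal hp hX'
    by_cases hpy : Module.supportDim R (R ⧸ p.asIdeal) = y
    · rw [finsum_eq_single _ p]
      · rw [cyc_congr y e, cyc_of_eq hpy]
        change _ = ((locLen p.asIdeal (R ⧸ p.asIdeal)).toNat : ℤ) * _
        rw [locLen_self]
        simp
      · intro P hne
        by_cases hP : Module.supportDim R (R ⧸ P.asIdeal) = y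
        · rw [cyc_congr y e, cyc_of_eq hP]
          change ((locLen P.asIdeal (R ⧸ p.asIdeal)).toNat : ℤ) * _ = 0
          rw [cyc_quotient hd y p P hdim hP hne]
          simp
        · rw [cyc_of_ne hP, zero_mul]
    · have hlt : Module.supportDim R (R ⧸ p.asIdeal) < y := lt_of_le_of_ne hdim hpy
      change φ (ModuleCat.of R (R ⧸ p.asIdeal)) = _
      rw [hp1 p.asIdeal hp hX' hlt]
      symm
      apply finsum_eq_zero_of_forall_eq_zero
      intro P
      by_cases hP : Module.supportDim R (R ⧸ P.asIdeal) = y
      · have hne : P ≠ p := by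
          rintro rfl
          exact hpy hP
        rw [cyc_congr y e, cyc_of_eq hP]
        change ((locLen P.asIdeal (R ⧸ p.asIdeal)).toNat : ℤ) * _ = 0
        rw [cyc_quotient hd y p P hdim hP hne]
        simp
      · rw [cyc_of_ne hP, zero_mul]
  | exact X' X X'' f g hf hg hex h1 h3 =>
    intro hX
    have hX' : FinC J X' := hX.mono (LinearMap.annihilator_le_of_injective f hf)
    have hX'' : FinC J X'' := hX.mono (LinearMap.annihilator_le_of_surjective g hg)
    rw [hφ X' X X'' f g hf hg hex hX, h1 hX', h3 hX'', ← finsum_add_distrib]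
    · refine finsum_congr fun P => ?_
      rw [cyc_add y f g hf hg hex P ((cyc_props hd y X (dim_le_of_primes hd y hp0 X hX)).1 P),
        add_mul]
    · exact (cyc_props hd y X' (dim_le_of_primes hd y hp0 X' hX')).2.subset
        (support_mul_subset_left _ _)
    · exact (cyc_props hd y X'' (dim_le_of_primes hd y hp0 X'' hX'')).2.subset
        (support_mul_subset_left _ _)

end reg

end Vale.Agent.P177.H391
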