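import Mathlib
import Vale.Agent.P177.H391.Addv

/-!
Iterated intersection multiplicities.
-/

namespace Vale.Agent.P177.H391

open CategoryTheory TensorProduct Function IsLocalRing Vale.Agent.P177

universe u

section defs

variable {R : Type u} [CommRing R]

/-- The iterated intersection multiplicity. -/
noncomputable def mchi (d : ℕ) : List (ModuleCat.{u} R) → ModuleCat.{u} R → ℤ
  | [], X => ((Module.length R X).toNat : ℤ)
  | M :: L, X => ∑ i ∈ Finset.range (d + 1), (-1 : ℤ) ^ i *
      mchi d L (((Tor (ModuleCat.{u} R) i).obj X).obj M)

/-- The iterated tensor product. -/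
noncomputable def mten : List (ModuleCat.{u} R) → ModuleCat.{u} R → ModuleCat.{u} R
  | [], X => X
  | M :: L, X => mten L (ModuleCat.of R (X ⊗[R] M))

/-- The sum of the annihilators. -/
noncomputable def annL : List (ModuleCat.{u} R) → Ideal R
  | [] => ⊥
  | M :: L => Module.annihilator R M ⊔ annL L

end defs

section reg

variable {R : Type u} [CommRing R] [IsRegularLocalRing R] {d : ℕ}

omit [IsRegularLocalRing R] in
theorem tor_ann_le (i : ℕ) (X M : Type u) [AddCommGroup X] [Module R X] [AddCommGroup M]
    [Module R M] : Module.annihilator R X ⊔ Module.annihilator R M ≤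
      Module.annihilator R (TorM R i X M) := by
  refine sup_le ?_ ?_
  · intro x hx
    rw [Module.mem_annihilator]
    exact tor_smul_eq_zero_left x (fun m => Module.mem_annihilator.1 hx m) i _
  · intro x hx
    rw [Module.mem_annihilator]
    exact tor_smul_eq_zero_right x (fun m => Module.mem_annihilator.1 hx m) i _

theorem FinC.tor {L : Ideal R} {X M : Type u} [AddCommGroup X] [Module R X] [AddCommGroup M]
    [Module R M] (h : FinC (Module.annihilator R M ⊔ L) X) (i : ℕ) : FinC L (TorM R i X M) := by
  unfold FinC at h ⊢
  refine h.trans (Ideal.radical_mono ?_)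
  rw [← sup_assoc]
  exact sup_le_sup_right (tor_ann_le i X M) L

omit [IsRegularLocalRing R] in
theorem addv_top [IsLocalRing R] [IsNoetherianRing R] {J : Ideal R} {φ : ModuleCat.{u} R → ℤ}
    (hφ : Addv J φ) {X : Type u}
    [AddCommGroup X] [Module R X] [hX' : Module.Finite R X] (p : Submodule R X) (hp : p = ⊤)
    (hX : FinC J X) : φ (ModuleCat.of R X) = φ (ModuleCat.of R p) :=
  hφ.congr (LinearEquiv.ofTop p hp).symm hX

theorem mchi_addv (hd : ringKrullDim R = d) (L : List (ModuleCat.{u} R))
    (hL : ∀ M ∈ L, Module.Finite R M) : Addv (annL L) (mchi d L) := by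
  induction L with
  | nil =>
    intro X' X X'' _ _ _ _ _ _ _ _ _ f g hf hg hex hX
    have hlen : Module.length R X ≠ ⊤ := by
      obtain ⟨k, hk⟩ := Ideal.exists_pow_le_of_le_radical_of_fg hX (IsNoetherian.noetherian _)
      rw [Module.length_ne_top_iff]
      refine isFiniteLength_of_pow_smul_eq_zero k ?_
      intro a ha x
      have h1 := hk ha
      rw [annL, sup_bot_eq] at h1
      exact Module.mem_annihilator.1 h1 x
    have h1 := Module.length_eq_add_of_exact f g hf hg hex
    rw [h1] at hlen
    have h3 := WithTop.add_ne_top.1 hlen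
    change ((Module.length R X).toNat : ℤ) = ((Module.length R X').toNat : ℤ) +
      ((Module.length R X'').toNat : ℤ)
    rw [h1, ENat.toNat_add h3.1 h3.2]
    push_cast
    rfl
  | cons M L ih =>
    have hM : Module.Finite R M := hL M (by simp)
    have ih := ih (fun N hN => hL N (by simp [hN]))
    intro X' X X'' _ _ _ _ _ _ _ _ _ f g hf hg hex hX
    have hX' : FinC (annL (M :: L)) X' := hX.mono (LinearMap.annihilator_le_of_injective f hf)
    have hX'' : FinC (annL (M :: L)) X'' := hX.mono (LinearMap.annihilator_le_of_surjective g hg)
    obtain ⟨δ, e1, e2, e3⟩ := exists_torDelta f g hf hg hex M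
    have f1 : ∀ j, Module.Finite R (TorM R j X' M) := fun j => tor_finite (R := R) j _ _
    have f2 : ∀ j, Module.Finite R (TorM R j X M) := fun j => tor_finite (R := R) j _ _
    have f3 : ∀ j, Module.Finite R (TorM R j X'' M) := fun j => tor_finite (R := R) j _ _
    have hnum := numeric_add (n := d)
      (a := fun j => mchi d L (TorM R j X' M))
      (b := fun j => mchi d L (TorM R j X M))
      (c := fun j => mchi d L (TorM R j X'' M))
      (d := fun j => mchi d L (ModuleCat.of R (LinearMap.range (δ j))))
      (f := fun j => mchi d L (ModuleCat.of R (LinearMap.range (torMap j f M))))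
      (g := fun j => mchi d L (ModuleCat.of R (LinearMap.range (torMap j g M))))
      (by
        intro j
        have h := ih.ker_add_range (torMap j f M) (FinC.tor hX' j)
        rw [LinearMap.exact_iff.1 (e2 j)] at h
        exact h)
      (by
        intro j
        have h := ih.ker_add_range (torMap j g M) (FinC.tor hX j)
        rw [LinearMap.exact_iff.1 (e3 j)] at h
        exact h)
      (by
        have h1 : LinearMap.range (torMap 0 g M) = ⊤ :=
          LinearMap.range_eq_top.2 (torMap_zero_surjective g hg M)
        change mchi d L (TorM R 0 X'' M) =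
          mchi d L (ModuleCat.of R (LinearMap.range (torMap 0 g M)))
        exact addv_top ih (X := TorM R 0 X'' M) _ h1 (FinC.tor hX'' 0))
      (by
        intro j
        have h := ih.ker_add_range (δ j) (FinC.tor hX'' (j + 1))
        rw [LinearMap.exact_iff.1 (e1 j)] at h
        exact h)
    have hv : Subsingleton (TorM R (d + 1) X'' M) := regular_tor_vanish R d hd _ _ (d + 1) le_rfl
    have hr : Subsingleton (LinearMap.range (δ d)) :=
      (LinearMap.surjective_rangeRestrict (δ d)).subsingleton
    have hd0 : mchi d L (ModuleCat.of R (LinearMap.range (δ d))) = 0 := ih.subsingleton _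
    simp only [hd0, mul_zero, add_zero] at hnum
    exact hnum.symm

theorem finC_of_length (L : List (ModuleCat.{u} R)) (hL : ∀ M ∈ L, Module.Finite R M)
    (X : ModuleCat.{u} R) [hX : Module.Finite R X] (h : Module.length R (mten L X) ≠ ⊤) :
    FinC (annL L) X := by
  induction L generalizing X with
  | nil =>
    rw [Module.length_ne_top_iff] at h
    obtain ⟨k, hk⟩ := exists_pow_smul_eq_zero h
    unfold FinC
    intro a ha
    rw [annL, sup_bot_eq]
    refine ⟨k, ?_⟩
    rw [Module.mem_annihilator]
    exact hk _ (Ideal.pow_mem_pow ha k)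
  | cons M L ih =>
    have hM : Module.Finite R M := hL M (by simp)
    have h1 := ih (fun N hN => hL N (by simp [hN])) (ModuleCat.of R (X ⊗[R] M)) h
    unfold FinC at h1 ⊢
    have h2 : Module.annihilator R (X ⊗[R] M) ≤
        (Module.annihilator R X ⊔ Module.annihilator R M).radical := by
      rw [Ideal.radical_eq_sInf]
      refine le_sInf ?_
      rintro P ⟨hP, hPp⟩
      have h1 : (⟨P, hPp⟩ : PrimeSpectrum R) ∈ Module.support R X := by
        rw [Module.support_eq_zeroLocus]
        exact le_trans le_sup_left hP
      have h2 : (⟨P, hPp⟩ : PrimeSpectrum R) ∈ Module.support R M := by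
        rw [Module.support_eq_zeroLocus]
        exact le_trans le_sup_right hP
      exact Module.annihilator_le_of_mem_support (mem_support_tensorProduct _ h1 h2)
    refine h1.trans ?_
    rw [Ideal.radical_le_radical_iff]
    refine sup_le ?_ ?_
    · refine h2.trans (Ideal.radical_mono ?_)
      rw [annL, ← sup_assoc]
      exact le_sup_left
    · refine le_trans ?_ Ideal.le_radical
      rw [annL]
      exact le_sup_right.trans le_sup_right

end reg

end Vale.Agent.P177.H391
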