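import Mathlib
import Vale.Agent.P177.H391.Multi
import Vale.Agent.P177.H391.Glob

/-!
The local Euler characteristic at a prime.
-/

namespace Vale.Agent.P177.H391

open CategoryTheory TensorProduct Function IsLocalRing Vale.Agent.P177

universe u

section reg

variable {R : Type u} [CommRing R] [IsRegularLocalRing R] {d : ℕ}

omit [IsRegularLocalRing R] in
/-- Upper bound for the dimension of a localization. -/
theorem supportDim_localization_le (Q : Ideal R) [Q.IsPrime] (q : ℕ) (hq : Q.height = q)
    (S : Type u) [CommRing S] [Algebra R S] [IsRegularLocalRing S] [IsLocalization.AtPrime S Q]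
    (X : Type u) [AddCommGroup X] [Module R X] [Module.Finite R X] (b : ℕ)
    (hb : ∀ p : Ideal R, p.IsPrime → p ≤ Q → Module.annihilator R X ≤ p → (b : ℕ∞) ≤ p.height) :
    Module.supportDim S (S ⊗[R] X) ≤ ((q - b : ℕ) : WithBot ℕ∞) := by
  have hdS : ringKrullDim S = q := by
    rw [IsLocalization.AtPrime.ringKrullDim_eq_height Q S, hq]
    rfl
  by_cases h : Subsingleton (S ⊗[R] X)
  · rw [Module.supportDim_eq_bot_of_subsingleton S (S ⊗[R] X)]
    exact bot_le
  rw [not_subsingleton_iff_nontrivial] at h
  obtain ⟨k, hk⟩ := exists_nat_supportDim q hdS (S ⊗[R] X)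
  obtain ⟨p, P, hp, hP, hle⟩ := exists_prime_of_le_supportDim hdS (S ⊗[R] X) k hk.ge
  rw [Module.support_eq_zeroLocus] at hp
  have hp' : Module.annihilator S (S ⊗[R] X) ≤ p.asIdeal := hp
  have h1 : (Module.annihilator R X).map (algebraMap R S) ≤ p.asIdeal :=
    (map_annihilator_le X).trans hp'
  have h2 : Module.annihilator R X ≤ p.asIdeal.comap (algebraMap R S) :=
    Ideal.map_le_iff_le_comap.1 h1
  have h3 : (p.asIdeal.comap (algebraMap R S)).height = p.asIdeal.height :=
    IsLocalization.height_under Q.primeCompl p.asIdeal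
  have h4 : p.asIdeal.comap (algebraMap R S) ≤ Q := by
    have h5 : p.asIdeal ≤ maximalIdeal S := le_maximalIdeal p.2.ne_top
    have h6 := Ideal.comap_mono (f := algebraMap R S) h5
    have h7 : Ideal.comap (algebraMap R S) (maximalIdeal S) = Q :=
      IsLocalization.AtPrime.under_maximalIdeal S Q
    exact h6.trans h7.le
  have h5 := hb _ (Ideal.IsPrime.comap _) h4 h2
  rw [h3, hP] at h5
  have h6 : b ≤ P := by exact_mod_cast h5
  rw [hk]
  have h7 : k ≤ q - b := by omega
  exact_mod_cast h7

theorem locEul_props (Q : Ideal R) [Q.IsPrime] (q : ℕ)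
    (hq : Q.height = q) (hqd : q ≤ d) (X M : Type u) [AddCommGroup X] [Module R X]
    [Module.Finite R X] [AddCommGroup M] [Module R M] [Module.Finite R M]
    (hfin : locLen Q (X ⊗[R] M) ≠ ⊤) (a b : ℕ)
    (ha : ∀ p : Ideal R, p.IsPrime → p ≤ Q → Module.annihilator R X ≤ p → (a : ℕ∞) ≤ p.height)
    (hb : ∀ p : Ideal R, p.IsPrime → p ≤ Q → Module.annihilator R M ≤ p → (b : ℕ∞) ≤ p.height) :
    0 ≤ locEul Q (d + 1) X M ∧ ((q - a) + (q - b) < q → locEul Q (d + 1) X M = 0) ∧
      (∀ p p' : PrimeSpectrum R, p.asIdeal ≤ Q → p'.asIdeal ≤ Q →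
        Module.annihilator R X ≤ p.asIdeal → Module.annihilator R M ≤ p'.asIdeal →
        p.asIdeal.height = a → p'.asIdeal.height = b → q ≤ (q - a) + (q - b) →
        0 < locEul Q (d + 1) X M) := by
  have hreg : IsRegularLocalRing (Localization.AtPrime Q) :=
    isRegularLocalRing_localization R Q (Localization.AtPrime Q)
  have hdS : ringKrullDim (Localization.AtPrime Q) = q := by
    rw [IsLocalization.AtPrime.ringKrullDim_eq_height Q, hq]
    rfl
  have hlen : Module.length (Localization.AtPrime Q) ((Localization.AtPrime Q ⊗[R] X)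
      ⊗[Localization.AtPrime Q] (Localization.AtPrime Q ⊗[R] M)) ≠ ⊤ := by
    rw [← (AlgebraTensorModule.distribBaseChange R (Localization.AtPrime Q) X M).length_eq]
    exact hfin
  have hE : locEul Q (d + 1) X M = eulerTor (Localization.AtPrime Q) (q + 1)
      (Localization.AtPrime Q ⊗[R] X) (Localization.AtPrime Q ⊗[R] M) := by
    rw [locEul_eq]
    apply eulerTor_shrink _ _ _ _ (by omega)
    intro j hj
    exact regular_tor_vanish _ q hdS _ _ j hj
  rw [hE]
  refine ⟨nonNeg hdS _ _ hlen, ?_, ?_⟩
  · intro hlt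
    refine vanish hdS (nonNeg hdS) _ _ hlen ?_
    refine lt_of_le_of_lt (add_le_add
      (supportDim_localization_le Q q hq (Localization.AtPrime Q) X a ha)
      (supportDim_localization_le Q q hq (Localization.AtPrime Q) M b hb)) ?_
    exact_mod_cast hlt
  · intro p p' hpQ hp'Q hp hp' hpa hpb hle
    have k1 := le_supportDim_localization R Q p.asIdeal hpQ (Localization.AtPrime Q) X
      (by rw [Module.support_eq_zeroLocus]; exact hp) q a hq hpa
    have k2 := le_supportDim_localization R Q p'.asIdeal hp'Q (Localization.AtPrime Q) M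
      (by rw [Module.support_eq_zeroLocus]; exact hp') q b hq hpb
    exact ((serreAll hdS _ _ hlen).2 _ _ k1 k2).2 hle

theorem locLen_ne_zero (Q : Ideal R) [hQ : Q.IsPrime] (X : Type u) [AddCommGroup X]
    [Module R X] [Module.Finite R X] (h : Module.annihilator R X ≤ Q) (q : ℕ)
    (hq : Q.height = q) : locLen Q X ≠ 0 := by
  have hreg : IsRegularLocalRing (Localization.AtPrime Q) :=
    isRegularLocalRing_localization R Q (Localization.AtPrime Q)
  have k1 := le_supportDim_localization R Q Q le_rfl (Localization.AtPrime Q) X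
      (by rw [Module.support_eq_zeroLocus]; exact h) q q hq hq
  intro h0
  unfold locLen at h0
  rw [Module.length_eq_zero_iff] at h0
  rw [Module.supportDim_eq_bot_of_subsingleton (Localization.AtPrime Q)
    (Localization.AtPrime Q ⊗[R] X)] at k1
  exact absurd k1 (by simp)

end reg

end Vale.Agent.P177.H391
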