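import Mathlib
import Vale.Agent.P177.H391.LocVal

/-!
Positivity and vanishing for iterated intersection multiplicities.
-/

namespace Vale.Agent.P177.H391

open CategoryTheory TensorProduct Function IsLocalRing Vale.Agent.P177

universe u

section defs

variable {R : Type u} [CommRing R]

/-- The dimension as a natural number. -/
noncomputable def dimN (M : ModuleCat.{u} R) : ℕ := ((Module.supportDim R M).unbotD 0).toNat

/-- The sum of the codimensions. -/
noncomputable def codL (d : ℕ) : List (ModuleCat.{u} R) → ℕ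
  | [] => 0
  | M :: L => (d - dimN M) + codL d L

theorem dimN_spec {d : ℕ} (hd : ringKrullDim R = d) (M : ModuleCat.{u} R) [Nontrivial M] :
    Module.supportDim R M = dimN M := by
  obtain ⟨m, hm⟩ := exists_nat_supportDim d hd M
  unfold dimN
  rw [hm]
  rfl

end defs

section reg

variable {R : Type u} [CommRing R] [IsRegularLocalRing R] {d : ℕ}

theorem le_height_of_ann (hd : ringKrullDim R = d) (M : Type u) [AddCommGroup M] [Module R M]
    [Module.Finite R M] (m : ℕ) (hm : Module.supportDim R M = m) (p : Ideal R) [p.IsPrime]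
    (hp : Module.annihilator R M ≤ p) : ((d - m : ℕ) : ℕ∞) ≤ p.height := by
  obtain ⟨h, hh, hle, hdim⟩ := supportDim_prime_eq hd p
  have h1 : Module.supportDim R (R ⧸ p) ≤ Module.supportDim R M := by
    rw [Module.supportDim_eq_ringKrullDim_quotient_annihilator R M,
      ← Module.supportDim_quotient_eq_ringKrullDim]
    exact supportDim_quotient_mono hp
  rw [hdim, hm] at h1
  have h2 : d - h ≤ m := by exact_mod_cast h1
  rw [hh]
  have h3 : d - m ≤ h := by omega
  exact_mod_cast h3

theorem prime_nil (hd : ringKrullDim R = d) (P : Ideal R) (hP : P.IsPrime)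
    (hfin : FinC (annL ([] : List (ModuleCat.{u} R))) (R ⧸ P)) :
    Module.supportDim R (R ⧸ P) ≤ (0 : ℕ) ∧
    (Module.supportDim R (R ⧸ P) < (0 : ℕ) → mchi d [] (ModuleCat.of R (R ⧸ P)) = 0) ∧
    (Module.supportDim R (R ⧸ P) = (0 : ℕ) → 0 < mchi d [] (ModuleCat.of R (R ⧸ P))) := by
  have hPm : P = maximalIdeal R := by
    unfold FinC at hfin
    rw [annL, sup_bot_eq, Ideal.annihilator_quotient, hP.isRadical.radical] at hfin
    exact le_antisymm (le_maximalIdeal hP.ne_top) hfin
  obtain ⟨h, hh, hle, hdim⟩ := supportDim_prime_eq hd P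
  have h1 : (P.height : WithBot ℕ∞) = d := by
    rw [hPm, ← hd]
    exact IsLocalRing.maximalIdeal_height_eq_ringKrullDim
  rw [hh] at h1
  have h2 : h = d := by exact_mod_cast h1
  rw [h2, Nat.sub_self] at hdim
  have hlen : Module.length R (R ⧸ P) ≠ ⊤ := by
    rw [Module.length_ne_top_iff]
    refine isFiniteLength_of_pow_smul_eq_zero 1 ?_
    intro a ha x
    rw [pow_one, ← hPm] at ha
    obtain ⟨x, rfl⟩ := Ideal.Quotient.mk_surjective x
    change Ideal.Quotient.mk P (a * x) = 0
    exact Ideal.Quotient.eq_zero_iff_mem.2 (Ideal.mul_mem_right _ _ ha)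
  refine ⟨hdim.le, fun h' => absurd h' (by rw [hdim]; exact lt_irrefl _), fun _ => ?_⟩
  change (0 : ℤ) < ((Module.length R (R ⧸ P)).toNat : ℤ)
  have hne : Module.length R (R ⧸ P) ≠ 0 := by
    intro h0
    rw [Module.length_eq_zero_iff] at h0
    exact hP.ne_top (Ideal.Quotient.subsingleton_iff.1 h0)
  have h3 : (Module.length R (R ⧸ P)).toNat ≠ 0 := by
    intro h0
    rcases (ENat.toNat_eq_zero).1 h0 with h4 | h4
    · exact hne h4
    · exact hlen h4
  omega

theorem prime_case (hd : ringKrullDim R = d) (L : List (ModuleCat.{u} R))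
    (hL : ∀ M ∈ L, Module.Finite R M) (hL' : ∀ M ∈ L, Nontrivial M) :
    ∀ P : Ideal R, P.IsPrime → FinC (annL L) (R ⧸ P) →
    Module.supportDim R (R ⧸ P) ≤ codL d L ∧
    (Module.supportDim R (R ⧸ P) < codL d L → mchi d L (ModuleCat.of R (R ⧸ P)) = 0) ∧
    (Module.supportDim R (R ⧸ P) = codL d L → 0 < mchi d L (ModuleCat.of R (R ⧸ P))) := by
  induction L with
  | nil => exact fun P hP hfin => prime_nil hd P hP hfin
  | cons M L ih =>
    have hMf : Module.Finite R M := hL M (by simp)
    have hMn : Nontrivial M := hL' M (by simp)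
    have hLf : ∀ N ∈ L, Module.Finite R N := fun N hN => hL N (by simp [hN])
    have ih := ih hLf (fun N hN => hL' N (by simp [hN]))
    have hadd := mchi_addv hd L hLf
    have hp0 := fun P hP h => (ih P hP h).1
    have hp1 := fun P hP h => (ih P hP h).2.1
    have hdimX := dim_le_of_primes hd (codL d L) hp0
    have hcyc := fun (X : Type u) [AddCommGroup X] [Module R X] [Module.Finite R X]
      (hX : FinC (annL L) X) => hadd.cycle hd (codL d L) hp0 hp1 X hX
    intro P hP hfin
    obtain ⟨p, hp, hpd, hpdim⟩ := supportDim_prime_eq hd P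
    have hm := dimN_spec hd M
    have hmd : dimN M ≤ d := by
      have h1 : Module.supportDim R M ≤ (d : WithBot ℕ∞) :=
        hd ▸ Module.supportDim_le_ringKrullDim R M
      rw [hm] at h1
      exact_mod_cast h1
    obtain ⟨pM, c, hpM, hc, hcm⟩ := exists_prime_of_le_supportDim hd M (dimN M) hm.ge
    rw [Module.support_eq_zeroLocus] at hpM
    have hpM' : Module.annihilator R M ≤ pM.asIdeal := hpM
    have hpMp := pM.2
    have hc' := le_height_of_ann hd M (dimN M) hm pM.asIdeal hpM'
    rw [hc] at hc'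
    have hceq : c = d - dimN M := by
      have h1 : d - dimN M ≤ c := by exact_mod_cast hc'
      omega
    -- the finiteness condition at the primes above
    have hfinQ : ∀ Q : Ideal R, P ≤ Q → Module.annihilator R M ≤ Q → FinC (annL L) (R ⧸ Q) := by
      intro Q h1 h2
      unfold FinC at hfin ⊢
      rw [Ideal.annihilator_quotient] at hfin ⊢
      refine hfin.trans (Ideal.radical_mono ?_)
      rw [annL]
      exact sup_le (h1.trans le_sup_left) (sup_le (h2.trans le_sup_left) le_sup_right)
    -- the special prime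
    obtain ⟨Q₀, hQ₀, -⟩ := Ideal.exists_minimalPrimes_le (J := maximalIdeal R)
      (sup_le (le_maximalIdeal hP.ne_top) (le_maximalIdeal hpMp.ne_top) :
        P ⊔ pM.asIdeal ≤ maximalIdeal R)
    have hQ₀p : Q₀.IsPrime := hQ₀.1.1
    have hPQ₀ : P ≤ Q₀ := le_sup_left.trans hQ₀.1.2
    have hMQ₀ : pM.asIdeal ≤ Q₀ := le_sup_right.trans hQ₀.1.2
    obtain ⟨q₀, hq₀, hq₀d, hq₀dim⟩ := supportDim_prime_eq hd Q₀
    have hQ₀le : q₀ ≤ p + c := by
      have hreg : IsRegularLocalRing (Localization.AtPrime Q₀) :=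
        isRegularLocalRing_localization R Q₀ (Localization.AtPrime Q₀)
      have h1 := (glob (Localization.AtPrime Q₀) R Q₀ P pM.asIdeal hP hpMp hQ₀ q₀ hq₀).2.2.1
      rw [hq₀, hp, hc] at h1
      exact_mod_cast h1
    have hfinQ₀ := hfinQ Q₀ hPQ₀ (hpM'.trans hMQ₀)
    obtain ⟨i1, i2, i3⟩ := ih Q₀ hQ₀p hfinQ₀
    have hq₀y : d - q₀ ≤ codL d L := by
      rw [hq₀dim] at i1
      exact_mod_cast i1
    -- the Tor modules
    have hTf : ∀ j, Module.Finite R (TorM R j (R ⧸ P) M) := fun j => tor_finite (R := R) j _ _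
    have hTfin : ∀ j, FinC (annL L) (TorM R j (R ⧸ P) M) := fun j => FinC.tor hfin j
    have hXM : FinC (annL L) ((R ⧸ P) ⊗[R] M) :=
      (hTfin 0).mono (torZero (R ⧸ P) M).annihilator_eq.le
    have hXMdim := hdimX ((R ⧸ P) ⊗[R] M) hXM
    have hXMlen := (cyc_props hd (codL d L) ((R ⧸ P) ⊗[R] M) hXMdim).1
    -- the weights
    let w : PrimeSpectrum R → ℤ := fun Q =>
      ∑ j ∈ Finset.range (d + 1), (-1 : ℤ) ^ j * cyc (codL d L) (TorM R j (R ⧸ P) M) Q
    have hmain : mchi d (M :: L) (ModuleCat.of R (R ⧸ P)) =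
        ∑ᶠ Q : PrimeSpectrum R, w Q * mchi d L (ModuleCat.of R (R ⧸ Q.asIdeal)) := by
      change ∑ j ∈ Finset.range (d + 1), (-1 : ℤ) ^ j * mchi d L (TorM R j (R ⧸ P) M) = _
      have h1 : ∀ j ∈ Finset.range (d + 1), (-1 : ℤ) ^ j * mchi d L (TorM R j (R ⧸ P) M) =
          ∑ᶠ Q : PrimeSpectrum R, (-1 : ℤ) ^ j * (cyc (codL d L) (TorM R j (R ⧸ P) M) Q *
            mchi d L (ModuleCat.of R (R ⧸ Q.asIdeal))) := by
        intro j _
        rw [← mul_finsum]
        congr 1
        exact hcyc (TorM R j (R ⧸ P) M) (hTfin j)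
      rw [Finset.sum_congr rfl h1, sum_finsum_comm]
      · refine finsum_congr fun Q => ?_
        change _ = (∑ j ∈ Finset.range (d + 1), (-1 : ℤ) ^ j *
          cyc (codL d L) (TorM R j (R ⧸ P) M) Q) * _
        rw [Finset.sum_mul]
        refine Finset.sum_congr rfl fun j _ => ?_
        ring
      · intro j _
        exact ((cyc_props hd (codL d L) (TorM R j (R ⧸ P) M)
          (hdimX (TorM R j (R ⧸ P) M) (hTfin j))).2.subset
            (support_mul_subset_left _ _)).subset (support_mul_subset_right _ _)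
    have hw0 : ∀ Q : PrimeSpectrum R, ¬ (Module.supportDim R (R ⧸ Q.asIdeal) = codL d L ∧
        P ≤ Q.asIdeal ∧ Module.annihilator R M ≤ Q.asIdeal) → w Q = 0 := by
      intro Q hQ
      refine Finset.sum_eq_zero fun j _ => ?_
      have h1 : cyc (codL d L) (TorM R j (R ⧸ P) M) Q = 0 := by
        by_contra hne
        apply hQ
        have h2 := ann_le_of_cyc_ne_zero hne
        have h3 := (tor_ann_le j (R ⧸ P) M).trans h2
        rw [Ideal.annihilator_quotient] at h3
        exact ⟨dim_of_cyc_ne_zero hne, le_sup_left.trans h3, le_sup_right.trans h3⟩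
      rw [h1, mul_zero]
    have hweq : ∀ Q : PrimeSpectrum R, Module.supportDim R (R ⧸ Q.asIdeal) = codL d L →
        w Q = locEul Q.asIdeal (d + 1) (R ⧸ P) M := by
      intro Q hQ
      refine Finset.sum_congr rfl fun j _ => ?_
      rw [cyc_of_eq hQ]
    have hPb : ∀ Q : Ideal R, ∀ p' : Ideal R, p'.IsPrime → p' ≤ Q →
        Module.annihilator R (R ⧸ P) ≤ p' → (p : ℕ∞) ≤ p'.height := by
      intro Q p' hp' _ h1
      rw [Ideal.annihilator_quotient] at h1
      rw [← hp]
      exact Ideal.height_mono h1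
    have hMb : ∀ Q : Ideal R, ∀ p' : Ideal R, p'.IsPrime → p' ≤ Q →
        Module.annihilator R M ≤ p' → ((d - dimN M : ℕ) : ℕ∞) ≤ p'.height := by
      intro Q p' hp' _ h1
      exact le_height_of_ann hd M (dimN M) hm p' h1
    have hwnn : ∀ Q : PrimeSpectrum R,
        0 ≤ w Q * mchi d L (ModuleCat.of R (R ⧸ Q.asIdeal)) := by
      intro Q
      by_cases hQ : Module.supportDim R (R ⧸ Q.asIdeal) = codL d L ∧
        P ≤ Q.asIdeal ∧ Module.annihilator R M ≤ Q.asIdeal
      · obtain ⟨hQ1, hQ2, hQ3⟩ := hQ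
        have hQp := Q.2
        obtain ⟨q, hq, hqd, hqdim⟩ := supportDim_prime_eq hd Q.asIdeal
        have h1 := locEul_props Q.asIdeal q hq hqd (R ⧸ P) M (hXMlen Q hQ1) p (d - dimN M)
          (hPb Q.asIdeal) (hMb Q.asIdeal)
        rw [hweq Q hQ1]
        exact mul_nonneg h1.1 ((ih Q.asIdeal Q.2 (hfinQ Q.asIdeal hQ2 hQ3)).2.2 hQ1).le
      · rw [hw0 Q hQ, zero_mul]
    have hcod : codL d (M :: L) = (d - dimN M) + codL d L := rfl
    refine ⟨?_, ?_, ?_⟩
    · rw [hpdim, hcod]
      have h1 : d - p ≤ (d - dimN M) + codL d L := by omega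
      exact_mod_cast h1
    · intro hlt
      rw [hpdim, hcod] at hlt
      have hlt' : d - p < (d - dimN M) + codL d L := by exact_mod_cast hlt
      rw [hmain]
      apply finsum_eq_zero_of_forall_eq_zero
      intro Q
      by_cases hQ : Module.supportDim R (R ⧸ Q.asIdeal) = codL d L ∧
        P ≤ Q.asIdeal ∧ Module.annihilator R M ≤ Q.asIdeal
      · obtain ⟨hQ1, hQ2, hQ3⟩ := hQ
        have hQp := Q.2
        obtain ⟨q, hq, hqd, hqdim⟩ := supportDim_prime_eq hd Q.asIdeal
        have h1 := locEul_props Q.asIdeal q hq hqd (R ⧸ P) M (hXMlen Q hQ1) p (d - dimN M)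
          (hPb Q.asIdeal) (hMb Q.asIdeal)
        rw [hqdim] at hQ1
        have h2 : d - q = codL d L := by exact_mod_cast hQ1
        have h3 : p ≤ q := by
          have h4 := Ideal.height_mono hQ2
          rw [hp, hq] at h4
          exact_mod_cast h4
        have h4 : d - dimN M ≤ q := by
          have h5 := hMb Q.asIdeal Q.asIdeal Q.2 le_rfl hQ3
          rw [hq] at h5
          exact_mod_cast h5
        rw [hweq Q (by rw [hqdim, h2]), h1.2.1 (by omega), zero_mul]
      · rw [hw0 Q hQ, zero_mul]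
    · intro heq
      rw [hpdim, hcod] at heq
      have heq' : d - p = (d - dimN M) + codL d L := by exact_mod_cast heq
      have h2 : d - q₀ = codL d L := by omega
      have hQ₀dim : Module.supportDim R (R ⧸ Q₀) = codL d L := by rw [hq₀dim, h2]
      have h1 := locEul_props Q₀ q₀ hq₀ hq₀d (R ⧸ P) M
        (hXMlen (⟨Q₀, hQ₀p⟩ : PrimeSpectrum R) hQ₀dim) p (d - dimN M) (hPb Q₀) (hMb Q₀)
      have h3 := h1.2.2 ⟨P, hP⟩ pM hPQ₀ hMQ₀ (by rw [Ideal.annihilator_quotient]) hpM' hp
        (by rw [hc, hceq]) (by omega)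
      have h4 := i3 hQ₀dim
      rw [hmain]
      have hsupp : (support fun Q : PrimeSpectrum R =>
          w Q * mchi d L (ModuleCat.of R (R ⧸ Q.asIdeal))).Finite := by
        have h5 : (⋃ j ∈ Finset.range (d + 1),
            support (cyc (codL d L) (TorM R j (R ⧸ P) M) : PrimeSpectrum R → ℤ)).Finite :=
          (Finset.range (d + 1)).finite_toSet.biUnion fun j _ =>
            (cyc_props hd (codL d L) (TorM R j (R ⧸ P) M)
              (hdimX (TorM R j (R ⧸ P) M) (hTfin j))).2
        refine h5.subset ?_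
        intro Q hQ
        rw [mem_support] at hQ
        by_contra hcon
        apply hQ
        have h6 : w Q = 0 := by
          refine Finset.sum_eq_zero fun j hj => ?_
          have h7 : cyc (codL d L) (TorM R j (R ⧸ P) M) Q = 0 := by
            by_contra hne
            exact hcon (Set.mem_biUnion hj hne)
          rw [h7, mul_zero]
        rw [h6, zero_mul]
      have h5 := single_le_finsum (⟨Q₀, hQ₀p⟩ : PrimeSpectrum R) hsupp hwnn
      refine lt_of_lt_of_le ?_ h5
      change 0 < w (⟨Q₀, hQ₀p⟩ : PrimeSpectrum R) * mchi d L (ModuleCat.of R (R ⧸ Q₀))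
      rw [hweq (⟨Q₀, hQ₀p⟩ : PrimeSpectrum R) hQ₀dim]
      exact mul_pos h3 h4

/-- The general case. -/
theorem multi_main (hd : ringKrullDim R = d) (L : List (ModuleCat.{u} R))
    (hL : ∀ M ∈ L, Module.Finite R M) (hL' : ∀ M ∈ L, Nontrivial M) (X : Type u)
    [AddCommGroup X] [Module R X] [Module.Finite R X] (hX : FinC (annL L) X) :
    Module.supportDim R X ≤ codL d L ∧ 0 ≤ mchi d L (ModuleCat.of R X) ∧
    (Module.supportDim R X < codL d L → mchi d L (ModuleCat.of R X) = 0) ∧
    (Module.supportDim R X = codL d L → 0 < mchi d L (ModuleCat.of R X)) := by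
  have ih := prime_case hd L hL hL'
  have hadd := mchi_addv hd L hL
  have hp0 := fun P hP h => (ih P hP h).1
  have hp1 := fun P hP h => (ih P hP h).2.1
  have hdim := dim_le_of_primes hd (codL d L) hp0 X hX
  have hcyc := hadd.cycle hd (codL d L) hp0 hp1 X hX
  have hprops := cyc_props hd (codL d L) X hdim
  have hnn : ∀ P : PrimeSpectrum R,
      0 ≤ cyc (codL d L) X P * mchi d L (ModuleCat.of R (R ⧸ P.asIdeal)) := by
    intro P
    by_cases hP : cyc (codL d L) X P = 0
    · rw [hP, zero_mul]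
    · exact mul_nonneg (cyc_nonneg _ _ _)
        ((ih P.asIdeal P.2 (hX.quot (ann_le_of_cyc_ne_zero hP))).2.2 (dim_of_cyc_ne_zero hP)).le
  refine ⟨hdim, ?_, ?_, ?_⟩
  · rw [hcyc]
    exact finsum_nonneg hnn
  · intro hlt
    rw [hcyc]
    apply finsum_eq_zero_of_forall_eq_zero
    intro P
    by_cases hP : cyc (codL d L) X P = 0
    · rw [hP, zero_mul]
    · exfalso
      have h1 := ann_le_of_cyc_ne_zero hP
      have h2 := dim_of_cyc_ne_zero hP
      have h3 : Module.supportDim R (R ⧸ P.asIdeal) ≤ Module.supportDim R X := by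
        rw [Module.supportDim_eq_ringKrullDim_quotient_annihilator R X,
          ← Module.supportDim_quotient_eq_ringKrullDim]
        exact supportDim_quotient_mono h1
      rw [h2] at h3
      exact absurd hlt (not_lt.2 h3)
  · intro heq
    obtain ⟨P, c, hP, hc, hcd⟩ := exists_prime_of_le_supportDim hd X (codL d L) heq.ge
    rw [Module.support_eq_zeroLocus] at hP
    have hP' : Module.annihilator R X ≤ P.asIdeal := hP
    have hPp := P.2
    obtain ⟨q, hq, hqd, hqdim⟩ := supportDim_prime_eq hd P.asIdeal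
    have h1 := le_height_of_ann hd X (codL d L) heq P.asIdeal hP'
    rw [hc] at h1
    have h2 : d - codL d L ≤ c := by exact_mod_cast h1
    rw [hc] at hq
    have h3 : c = q := by exact_mod_cast hq
    have h4 : d - q = codL d L := by omega
    have hPd : Module.supportDim R (R ⧸ P.asIdeal) = codL d L := by rw [hqdim, h4]
    have h5 := hprops.1 P hPd
    have h6 := locLen_ne_zero P.asIdeal X hP' c hc
    have h7 : 0 < cyc (codL d L) X P := by
      rw [cyc_of_eq hPd]
      have h8 : (locLen P.asIdeal X).toNat ≠ 0 := by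
        intro h0
        rcases (ENat.toNat_eq_zero).1 h0 with h9 | h9
        · exact h6 h9
        · exact h5 h9
      omega
    rw [hcyc]
    refine lt_of_lt_of_le ?_ (single_le_finsum P
      (hprops.2.subset (support_mul_subset_left _ _)) hnn)
    exact mul_pos h7 ((ih P.asIdeal P.2 (hX.quot hP')).2.2 hPd)

end reg

end Vale.Agent.P177.H391
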