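import Mathlib
import Vale.Agent.P177.H391.Ind

/-!
Final forms of the theorems on iterated intersection multiplicities.
-/

namespace Vale.Agent.P177.H391

open CategoryTheory TensorProduct Function IsLocalRing Vale.Agent.P177

universe u

section triv

variable {R : Type u} [CommRing R] [IsRegularLocalRing R] {d : ℕ}

theorem mchi_trivial (hd : ringKrullDim R = d) (L : List (ModuleCat.{u} R))
    (hL : ∀ M ∈ L, Module.Finite R M) (h : ∃ M ∈ L, Subsingleton M) (X : ModuleCat.{u} R) :
    mchi d L X = 0 := by
  induction L generalizing X with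
  | nil => simp at h
  | cons N L ih =>
    have hL' : ∀ M ∈ L, Module.Finite R M := fun M hM => hL M (by simp [hM])
    refine Finset.sum_eq_zero fun j _ => ?_
    obtain ⟨M, hM, hMs⟩ := h
    rcases List.mem_cons.1 hM with rfl | hM
    · have h1 : Subsingleton (TorM R j M X) := tor_subsingleton_left (T := R) j M X
      obtain ⟨e⟩ := tor_symm (R := R) j X M
      have h2 : Subsingleton (TorM R j X M) := e.toEquiv.subsingleton
      have h3 : mchi d L (((Tor (ModuleCat.{u} R) j).obj X).obj M) = 0 :=
        (mchi_addv hd L hL').subsingleton (TorM R j X M)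
      rw [h3, mul_zero]
    · rw [ih hL' ⟨M, hM, hMs⟩, mul_zero]

omit [IsRegularLocalRing R] in
theorem sum_bot (L : List (ModuleCat.{u} R)) (h : ∃ M ∈ L, Subsingleton M) :
    (L.map fun M : ModuleCat.{u} R => Module.supportDim R M).sum = ⊥ := by
  induction L with
  | nil => simp at h
  | cons N L ih =>
    obtain ⟨M, hM, hMs⟩ := h
    rw [List.map_cons, List.sum_cons]
    rcases List.mem_cons.1 hM with rfl | hM
    · rw [Module.supportDim_eq_bot_of_subsingleton R M, WithBot.bot_add]
    · rw [ih ⟨M, hM, hMs⟩, WithBot.add_bot]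

omit [IsRegularLocalRing R] in
theorem sum_eq (hd : ringKrullDim R = d) (L : List (ModuleCat.{u} R))
    (h : ∀ M ∈ L, Nontrivial M) :
    (L.map fun M : ModuleCat.{u} R => Module.supportDim R M).sum = (((L.map dimN).sum : ℕ) : WithBot ℕ∞) ∧
      codL d L + (L.map dimN).sum = L.length * d := by
  induction L with
  | nil => exact ⟨rfl, by simp [codL]⟩
  | cons N L ih =>
    have hN : Nontrivial N := h N (by simp)
    obtain ⟨h1, h2⟩ := ih (fun M hM => h M (by simp [hM]))
    have hN' := dimN_spec hd N
    have hNd : dimN N ≤ d := by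
      have h1 : Module.supportDim R N ≤ (d : WithBot ℕ∞) :=
        hd ▸ Module.supportDim_le_ringKrullDim R N
      rw [hN'] at h1
      exact_mod_cast h1
    refine ⟨?_, ?_⟩
    · rw [List.map_cons, List.sum_cons, h1, hN', List.map_cons, List.sum_cons]
      push_cast
      rfl
    · change (d - dimN N) + codL d L + _ = _
      rw [List.map_cons, List.sum_cons, List.length_cons, add_mul, one_mul]
      omega

/-- Serre's conjectures for any number of modules. -/
theorem multi_final (hd : ringKrullDim R = d) (L : List (ModuleCat.{u} R))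
    (hL : ∀ M ∈ L, Module.Finite R M) (X : ModuleCat.{u} R) (hX : Module.Finite R X)
    (hlen : Module.length R (mten L X) ≠ ⊤) :
    Module.supportDim R X + (L.map fun M : ModuleCat.{u} R => Module.supportDim R M).sum ≤
      ((L.length * d : ℕ) : WithBot ℕ∞) ∧
    0 ≤ mchi d L X ∧
    (0 < mchi d L X ↔ Module.supportDim R X + (L.map fun M : ModuleCat.{u} R => Module.supportDim R M).sum =
      ((L.length * d : ℕ) : WithBot ℕ∞)) := by
  by_cases hs : ∃ M ∈ L, Subsingleton M
  · rw [sum_bot L hs, WithBot.add_bot, mchi_trivial hd L hL hs X]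
    refine ⟨bot_le, le_rfl, fun h => absurd h (lt_irrefl _), fun h => ?_⟩
    exact absurd h.symm (by exact WithBot.coe_ne_bot)
  by_cases hXs : Subsingleton X
  · have h0 : mchi d L X = 0 := (mchi_addv hd L hL).subsingleton X
    rw [Module.supportDim_eq_bot_of_subsingleton R X, WithBot.bot_add, h0]
    refine ⟨bot_le, le_rfl, fun h => absurd h (lt_irrefl _), fun h => ?_⟩
    exact absurd h.symm (by exact WithBot.coe_ne_bot)
  rw [not_subsingleton_iff_nontrivial] at hXs
  have hn : ∀ M ∈ L, Nontrivial M := fun M hM => by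
    rw [← not_subsingleton_iff_nontrivial]
    exact fun h => hs ⟨M, hM, h⟩
  obtain ⟨h1, h2⟩ := sum_eq hd L hn
  obtain ⟨m1, m2, m3, m4⟩ := multi_main hd L hL hn X (finC_of_length L hL X hlen)
  have hx := dimN_spec hd X
  rw [hx] at m1 m3 m4
  rw [hx, h1]
  have m1' : dimN X ≤ codL d L := by exact_mod_cast m1
  have k1 : dimN X + (L.map dimN).sum ≤ L.length * d := by omega
  refine ⟨by exact_mod_cast k1, m2, fun h => ?_, fun h => ?_⟩
  · by_contra hne
    have k2 : dimN X + (L.map dimN).sum ≠ L.length * d := fun h' => hne (by exact_mod_cast h')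
    have k3 : dimN X < codL d L := by omega
    have k4 := m3 (by exact_mod_cast k3)
    change 0 < mchi d L X at h
    have k5 : mchi d L X = 0 := k4
    omega
  · have k2 : dimN X + (L.map dimN).sum = L.length * d := by exact_mod_cast h
    have k3 : dimN X = codL d L := by omega
    exact m4 (by rw [k3])

end triv

section geom

theorem annL_map (S : Type u) [CommRing S] (L : List (Ideal S)) (P : Ideal S) :
    P ⊔ annL (L.map fun I => ModuleCat.of S (S ⧸ I)) = L.foldr (fun I J => I ⊔ J) P := by
  induction L with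
  | nil => simp [annL]
  | cons I L ih =>
    rw [List.map_cons, List.foldr_cons, ← ih, annL]
    change P ⊔ (Module.annihilator S (S ⧸ I) ⊔ _) = _
    rw [Ideal.annihilator_quotient, ← sup_assoc, ← sup_assoc, sup_comm P I]

theorem foldr_map {A S : Type u} [CommRing A] [CommRing S] (f : A →+* S) (L : List (Ideal A))
    (P : Ideal A) : (L.foldr (fun I J => I ⊔ J) P).map f =
      (L.map fun I => I.map f).foldr (fun I J => I ⊔ J) (P.map f) := by
  induction L with
  | nil => rfl
  | cons I L ih => rw [List.foldr_cons, Ideal.map_sup, ih, List.map_cons, List.foldr_cons]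

theorem le_foldr {A : Type u} [CommRing A] (L : List (Ideal A)) (P : Ideal A) :
    P ≤ L.foldr (fun I J => I ⊔ J) P ∧ ∀ I ∈ L, I ≤ L.foldr (fun I J => I ⊔ J) P := by
  induction L with
  | nil => exact ⟨le_rfl, by simp⟩
  | cons I L ih =>
    refine ⟨ih.1.trans le_sup_right, fun J hJ => ?_⟩
    rcases List.mem_cons.1 hJ with rfl | hJ
    · exact le_sup_left
    · exact (ih.2 J hJ).trans le_sup_right

/-- Intersection multiplicities of any number of primes along a component. -/
theorem geom_final (S : Type u) [CommRing S] [IsRegularLocalRing S] (A : Type u) [CommRing A]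
    [Algebra A S] (m P : Ideal A) (L : List (Ideal A)) [m.IsPrime] [IsLocalization.AtPrime S m]
    (hP : P.IsPrime) (hL : ∀ I ∈ L, I.IsPrime)
    (hm : m ∈ (L.foldr (fun I J => I ⊔ J) P).minimalPrimes) (h : ℕ) (hh : m.height = h) :
    m.height ≤ P.height + (L.map Ideal.height).sum ∧
    0 ≤ mchi h (L.map fun I => ModuleCat.of S (S ⧸ I.map (algebraMap A S)))
      (ModuleCat.of S (S ⧸ P.map (algebraMap A S))) ∧
    (0 < mchi h (L.map fun I => ModuleCat.of S (S ⧸ I.map (algebraMap A S)))
      (ModuleCat.of S (S ⧸ P.map (algebraMap A S))) ↔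
      m.height = P.height + (L.map Ideal.height).sum) := by
  have hd : ringKrullDim S = h := by
    rw [IsLocalization.AtPrime.ringKrullDim_eq_height m S, hh]
    rfl
  have hle := le_foldr L P
  -- every prime below `m`
  have key : ∀ I : Ideal A, I.IsPrime → I ≤ m → ∃ a : ℕ, I.height = a ∧ a ≤ h ∧
      Nontrivial (S ⧸ I.map (algebraMap A S)) ∧
      Module.supportDim S (S ⧸ I.map (algebraMap A S)) = ((h - a : ℕ) : WithBot ℕ∞) := by
    intro I hI hIm
    have hId : Disjoint (m.primeCompl : Set A) (I : Set A) :=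
      Set.disjoint_left.2 fun x hx hxP => hx (hIm hxP)
    have hI' : (I.map (algebraMap A S)).IsPrime :=
      IsLocalization.isPrime_of_isPrime_disjoint m.primeCompl S I hI hId
    have hIh : (I.map (algebraMap A S)).height = I.height :=
      IsLocalization.height_map_of_disjoint m.primeCompl I hId
    obtain ⟨a, ha, hah, hdim⟩ := supportDim_prime_eq hd (I.map (algebraMap A S))
    exact ⟨a, by rw [← hIh, ha], hah, Ideal.Quotient.nontrivial_iff.2 hI'.ne_top, hdim⟩
  have hPm : P ≤ m := hle.1.trans hm.1.2
  have hLm : ∀ I ∈ L, I ≤ m := fun I hI => (hle.2 I hI).trans hm.1.2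
  let L' : List (ModuleCat.{u} S) := L.map fun I => ModuleCat.of S (S ⧸ I.map (algebraMap A S))
  have hLf : ∀ M ∈ L', Module.Finite S M := by
    intro M hM
    obtain ⟨I, hI, rfl⟩ := List.mem_map.1 hM
    change Module.Finite S (S ⧸ I.map (algebraMap A S))
    infer_instance
  have hLn : ∀ M ∈ L', Nontrivial M := by
    intro M hM
    obtain ⟨I, hI, rfl⟩ := List.mem_map.1 hM
    obtain ⟨-, -, -, hn, -⟩ := key I (hL I hI) (hLm I hI)
    exact hn
  have hfin : FinC (annL L') (S ⧸ P.map (algebraMap A S)) := by
    unfold FinC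
    have h1 : L' = (L.map fun I => I.map (algebraMap A S)).map
        fun I => ModuleCat.of S (S ⧸ I) := by
      rw [List.map_map]
      rfl
    rw [Ideal.annihilator_quotient, h1, annL_map, ← foldr_map,
      IsLocalization.AtPrime.radical_map_of_mem_minimalPrimes S m _ hm]
    exact (IsLocalization.AtPrime.map_eq_maximalIdeal m S).ge
  obtain ⟨m1, m2, m3, m4⟩ := multi_main hd L' hLf hLn (S ⧸ P.map (algebraMap A S)) hfin
  have hcod : ∀ K : List (Ideal A), (∀ I ∈ K, I.IsPrime) → (∀ I ∈ K, I ≤ m) →
      ((codL h (K.map fun I => ModuleCat.of S (S ⧸ I.map (algebraMap A S))) : ℕ) : ℕ∞) =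
        (K.map Ideal.height).sum := by
    intro K
    induction K with
    | nil => intro _ _; rfl
    | cons I K ih =>
      intro h1 h2
      have h3 := ih (fun J hJ => h1 J (by simp [hJ])) (fun J hJ => h2 J (by simp [hJ]))
      obtain ⟨a, ha, hah, hn, hdim⟩ := key I (h1 I (by simp)) (h2 I (by simp))
      rw [List.map_cons, List.map_cons, List.sum_cons, ← h3, ha]
      change (((h - dimN (ModuleCat.of S (S ⧸ I.map (algebraMap A S)))) +
        codL h (K.map fun I => ModuleCat.of S (S ⧸ I.map (algebraMap A S))) : ℕ) : ℕ∞) = _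
      have h4 : dimN (ModuleCat.of S (S ⧸ I.map (algebraMap A S))) = h - a := by
        unfold dimN
        change ((Module.supportDim S (S ⧸ I.map (algebraMap A S))).unbotD 0).toNat = _
        rw [hdim]
        rfl
      rw [h4]
      have h5 : h - (h - a) = a := by omega
      rw [h5]
      push_cast
      rfl
  have hcodL := hcod L hL hLm
  obtain ⟨p, hp, hph, -, hpdim⟩ := key P hP hPm
  rw [hpdim] at m1 m3 m4
  rw [hh, hp, ← hcodL]
  have m1' : h - p ≤ codL h L' := by exact_mod_cast m1
  refine ⟨?_, m2, fun h' => ?_, fun h' => ?_⟩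
  · have k1 : h ≤ p + codL h L' := by omega
    exact_mod_cast k1
  · by_contra hne
    have k2 : h ≠ p + codL h L' := fun h'' => hne (by exact_mod_cast h'')
    have k3 : h - p < codL h L' := by omega
    have k4 := m3 (by exact_mod_cast k3)
    have k5 : 0 < mchi h L' (ModuleCat.of S (S ⧸ P.map (algebraMap A S))) := h'
    omega
  · have k2 : h = p + codL h L' := by exact_mod_cast h'
    have k3 : h - p = codL h L' := by omega
    exact m4 (by rw [k3])

end geom

end Vale.Agent.P177.H391
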